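import Vale.Agent.P139.H844.UPc
import Vale.Agent.P139.H399.Abel
import Vale.Agent.P139.BU.UP

/-!
# P139 / H844 : the field `bd` of the package `UP`
-/

open scoped ComplexConjugate ContDiff Topology
open Complex Filter Set

namespace Vale.Agent.P139.H844

open H460

/-- Modulus from a bound of its power, lower side. -/
theorem le_norm_of_le_pow {x c : ℝ} {n : ℕ} (hx : 0 ≤ x) (hc1 : c ≤ 1) (hn : n ≠ 0)
    (h : c ≤ x ^ n) : c ≤ x := by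
  by_contra hcon
  push Not at hcon
  have h1 : x ≤ 1 := by linarith
  have h2 : x ^ n ≤ x := by
    calc x ^ n ≤ x ^ 1 := pow_le_pow_of_le_one hx h1 (Nat.one_le_iff_ne_zero.2 hn)
      _ = x := pow_one x
  linarith

/-- Modulus from a bound of its power, upper side. -/
theorem norm_le_of_pow_le {x C : ℝ} {n : ℕ} (hC : 1 ≤ C) (hn : n ≠ 0)
    (h : x ^ n ≤ C) : x ≤ C := by
  by_contra hcon
  push Not at hcon
  have h1 : 1 ≤ x := by linarith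
  have h2 : x ≤ x ^ n := by
    calc x = x ^ 1 := (pow_one x).symm
      _ ≤ x ^ n := pow_le_pow_right₀ h1 (Nat.one_le_iff_ne_zero.2 hn)
  linarith

/-- Linear solutions beyond the hitting radius: existence with uniform two-sided bounds. -/
theorem linInf_bounds {d : ℕ} (hd : 1 ≤ d) {R1 R2 b : ℝ} (hR1 : 0 < R1) (hRb : R2 < b) :
    ∃ c > 0, ∃ C > 0, ∀ R w : ℝ, R1 ≤ R → R ≤ R2 → 0 ≤ w → w ≤ 1 →
      ∃ Z Z1 : ℝ → ℂ, Continuous Z ∧ Continuous Z1 ∧ BU.LinInf d w Z Z1 (Icc R b) ∧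
        Z R = 1 ∧ Z1 R = 0 ∧ ∀ r ∈ Icc R b, c ≤ ‖Z r‖ ∧ ‖Z r‖ ≤ C ∧ ‖Z1 r‖ ≤ C := by
  rcases lt_or_ge R2 R1 with h12 | h12
  · exact ⟨1, one_pos, 1, one_pos, fun R w h1 h2 => absurd (h1.trans h2) (not_le.2 h12)⟩
  obtain ⟨Z, Z1, hc, hc1, hdat, hode⟩ := H399.exists_Z d (lo := R1) (hi := b) (wM := 1) hR1
    (h12.trans hRb.le) zero_le_one
  have hK : IsCompact (Icc R1 R2 ×ˢ (Icc (0 : ℝ) 1 ×ˢ Icc R1 b)) :=
    isCompact_Icc.prod (isCompact_Icc.prod isCompact_Icc)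
  obtain ⟨A, hA⟩ := hK.exists_bound_of_continuousOn (f := fun p : ℝ × ℝ × ℝ => Z p.1 p.2.1 p.2.2)
    hc.continuousOn
  obtain ⟨A1, hA1⟩ := hK.exists_bound_of_continuousOn
    (f := fun p : ℝ × ℝ × ℝ => Z1 p.1 p.2.1 p.2.2) hc1.continuousOn
  set C : ℝ := max (max A A1) 1 with hCdef
  have hC1 : 1 ≤ C := le_max_right _ _
  have hC0 : 0 < C := by linarith
  have hb0 : 0 < b := by linarith
  obtain ⟨k, rfl⟩ : ∃ k, d = k + 1 := ⟨d - 1, by omega⟩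
  set D : ℝ := b ^ k * C + b ^ (k + 1) * C / 4 with hD
  have hD0 : 0 < D := by positivity
  refine ⟨R1 ^ (k + 1) / 4 / D, by positivity, C, hC0, ?_⟩
  intro R w h1 h2 hw0 hw1
  have hR0 : 0 < R := hR1.trans_le h1
  have hcZ : Continuous (Z R w) := by
    have : Continuous (fun r : ℝ => ((R, w, r) : ℝ × ℝ × ℝ)) := by fun_prop
    exact hc.comp this
  have hcZ1 : Continuous (Z1 R w) := by
    have : Continuous (fun r : ℝ => ((R, w, r) : ℝ × ℝ × ℝ)) := by fun_prop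
    exact hc1.comp this
  have hsub : Icc R b ⊆ Icc R1 b := Icc_subset_Icc h1 le_rfl
  have hw' : |w| ≤ 1 := by rw [abs_of_nonneg hw0]; exact hw1
  have hod := hode R w hw'
  have hbd : ∀ r ∈ Icc R b, ‖Z R w r‖ ≤ C ∧ ‖Z1 R w r‖ ≤ C := by
    intro r hr
    have hmem : ((R, w, r) : ℝ × ℝ × ℝ) ∈ Icc R1 R2 ×ˢ (Icc (0 : ℝ) 1 ×ˢ Icc R1 b) :=
      ⟨⟨h1, h2⟩, ⟨hw0, hw1⟩, hsub hr⟩
    exact ⟨(hA _ hmem).trans ((le_max_left _ _).trans (le_max_left _ _)),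
      (hA1 _ hmem).trans ((le_max_right _ _).trans (le_max_left _ _))⟩
  refine ⟨Z R w, Z1 R w, hcZ, hcZ1, ⟨fun r hr => hod.h1 r (hsub hr), fun r hr => ?_⟩,
    (hdat R w).1, (hdat R w).2, fun r hr => ⟨?_, hbd r hr⟩⟩
  · refine (hod.h2 r (hsub hr)).congr_deriv ?_
    simp
  · -- flux identity
    have hder : ∀ s ∈ Icc R b, HasDerivAt (fun s => s ^ k * Gf (Z R w) (Z1 R w) s +
        s ^ (k + 1) * ((Z R w s).re ^ 2 + (Z R w s).im ^ 2) / 4)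
        ((((k : ℝ) + 1) / 4 - 0) * (s ^ k * ((Z R w s).re ^ 2 + (Z R w s).im ^ 2))) s := by
      intro s hs
      have hs0 : 0 < s := hR0.trans_le hs.1
      refine hasDerivAt_flux (w := w) (P := 0) hs0 (hod.h1 s (hsub hs)) ?_
      refine (hod.h2 s (hsub hs)).congr_deriv ?_
      push_cast
      ring
    have hmono : MonotoneOn (fun s => s ^ k * Gf (Z R w) (Z1 R w) s +
        s ^ (k + 1) * ((Z R w s).re ^ 2 + (Z R w s).im ^ 2) / 4) (Icc R b) := by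
      apply monotoneOn_of_deriv_nonneg (convex_Icc R b)
      · intro s hs
        exact (hder s hs).continuousAt.continuousWithinAt
      · intro s hs
        rw [interior_Icc] at hs
        exact (hder s ⟨hs.1.le, hs.2.le⟩).differentiableAt.differentiableWithinAt
      · intro s hs
        rw [interior_Icc] at hs
        rw [(hder s ⟨hs.1.le, hs.2.le⟩).deriv]
        have hs0 : 0 < s := hR0.trans hs.1
        rw [sub_zero]
        positivity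
    have h3 := hmono (left_mem_Icc.2 (hr.1.trans hr.2)) hr hr.1
    simp only [Gf, (hdat R w).1, (hdat R w).2] at h3
    simp only [one_re, zero_im, mul_zero, one_im, zero_re, sub_self, one_pow, ne_eq,
      OfNat.ofNat_ne_zero, not_false_eq_true, zero_pow, add_zero, mul_one, zero_add] at h3
    have hr0 : 0 < r := hR0.trans_le hr.1
    rw [← norm_sq_eq] at h3
    have h4 : R1 ^ (k + 1) / 4 ≤ R ^ (k + 1) / 4 := by
      have := pow_le_pow_left₀ hR1.le h1 (k + 1)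
      linarith
    obtain ⟨h5, h6⟩ := hbd r hr
    have h7 : (Z R w r).re * (Z1 R w r).im - (Z R w r).im * (Z1 R w r).re ≤
        ‖Z R w r‖ * ‖Z1 R w r‖ := by
      have e : (Z R w r).re * (Z1 R w r).im - (Z R w r).im * (Z1 R w r).re =
          (conj (Z R w r) * Z1 R w r).im := by
        simp; ring
      rw [e]
      calc (conj (Z R w r) * Z1 R w r).im ≤ ‖conj (Z R w r) * Z1 R w r‖ :=
            (le_abs_self _).trans (Complex.abs_im_le_norm _)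
        _ = ‖Z R w r‖ * ‖Z1 R w r‖ := by rw [norm_mul, Complex.norm_conj]
    have hrk : r ^ k ≤ b ^ k := pow_le_pow_left₀ hr0.le hr.2 k
    have hrk1 : r ^ (k + 1) ≤ b ^ (k + 1) := pow_le_pow_left₀ hr0.le hr.2 (k + 1)
    have h8 : R1 ^ (k + 1) / 4 ≤ ‖Z R w r‖ * D := by
      refine h4.trans (h3.trans ?_)
      have a1 : r ^ k * ((Z R w r).re * (Z1 R w r).im - (Z R w r).im * (Z1 R w r).re) ≤
          b ^ k * (‖Z R w r‖ * C) := by
        calc r ^ k * ((Z R w r).re * (Z1 R w r).im - (Z R w r).im * (Z1 R w r).re)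
            ≤ r ^ k * (‖Z R w r‖ * ‖Z1 R w r‖) :=
              mul_le_mul_of_nonneg_left h7 (by positivity)
          _ ≤ r ^ k * (‖Z R w r‖ * C) := by
              apply mul_le_mul_of_nonneg_left _ (by positivity)
              exact mul_le_mul_of_nonneg_left h6 (norm_nonneg _)
          _ ≤ b ^ k * (‖Z R w r‖ * C) := mul_le_mul_of_nonneg_right hrk (by positivity)
      have a2 : r ^ (k + 1) * ‖Z R w r‖ ^ 2 ≤ b ^ (k + 1) * (‖Z R w r‖ * C) := by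
        apply mul_le_mul hrk1 _ (by positivity) (by positivity)
        rw [sq]
        exact mul_le_mul_of_nonneg_left h5 (norm_nonneg _)
      rw [hD]
      nlinarith
    rw [div_le_iff₀ hD0]
    exact h8

/-- `|q'| ≤ M r / d` from the flux form of the equation. -/
theorem deriv_le_of_ode {q1 q2 : ℝ → ℂ} {k : ℕ} {b M : ℝ} (hk : 1 ≤ k)
    (h2 : ∀ r, HasDerivAt q1 (q2 r) r) (h10 : q1 0 = 0)
    (hM : ∀ r ∈ Ioc 0 b, ‖q2 r + ((((k : ℝ) / r : ℝ) : ℂ) + I * (r / 2 : ℝ)) * q1 r‖ ≤ M) :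
    ∀ r ∈ Icc 0 b, ‖q1 r‖ ≤ M * r / (k + 1) := by
  intro r hr
  set e : ℝ → ℂ := fun s => cexp (I * ((s ^ 2 / 4 : ℝ) : ℂ)) with he
  have hed : ∀ s, HasDerivAt e (e s * (I * ((s / 2 : ℝ) : ℂ))) s := by
    intro s
    have h3 : HasDerivAt (fun s : ℝ => s ^ 2 / 4) (s / 2) s := by
      refine ((hasDerivAt_pow 2 s).div_const 4).congr_deriv ?_
      simp; ring
    have h4 : HasDerivAt (fun s : ℝ => I * ((s ^ 2 / 4 : ℝ) : ℂ)) (I * ((s / 2 : ℝ) : ℂ)) s :=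
      h3.ofReal_comp.const_mul I
    exact h4.cexp
  have hen : ∀ s, ‖e s‖ = 1 := by
    intro s
    rw [he]
    simp only
    rw [mul_comm, Complex.norm_exp_ofReal_mul_I]
  -- the function y = r^k e q1
  have hy : ∀ s, HasDerivAt (fun s : ℝ => ((s ^ k : ℝ) : ℂ) * (e s * q1 s))
      (((k * s ^ (k - 1) : ℝ) : ℂ) * (e s * q1 s) +
        ((s ^ k : ℝ) : ℂ) * (e s * (I * ((s / 2 : ℝ) : ℂ)) * q1 s + e s * q2 s)) s := by
    intro s
    exact (hasDerivAt_pow k s).ofReal_comp.mul ((hed s).mul (h2 s))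
  have hbd : ∀ s ∈ Ico 0 r, ‖((k * s ^ (k - 1) : ℝ) : ℂ) * (e s * q1 s) +
        ((s ^ k : ℝ) : ℂ) * (e s * (I * ((s / 2 : ℝ) : ℂ)) * q1 s + e s * q2 s)‖ ≤
        M * s ^ k := by
    intro s hs
    rcases eq_or_lt_of_le hs.1 with h0 | h0
    · rw [← h0, h10, zero_pow (by omega : k ≠ 0)]
      simp
    · have e1 : s ^ k = s ^ (k - 1) * s := by rw [← pow_succ, Nat.sub_add_cancel hk]
      have e2 : ((k * s ^ (k - 1) : ℝ) : ℂ) * (e s * q1 s) +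
          ((s ^ k : ℝ) : ℂ) * (e s * (I * ((s / 2 : ℝ) : ℂ)) * q1 s + e s * q2 s) =
          ((s ^ k : ℝ) : ℂ) * e s * (q2 s + ((((k : ℝ) / s : ℝ) : ℂ) + I * (s / 2 : ℝ)) * q1 s) := by
        rw [e1]
        have : (s : ℂ) ≠ 0 := by exact_mod_cast h0.ne'
        push_cast
        field_simp
        ring
      rw [e2, norm_mul, norm_mul, hen, mul_one, Complex.norm_real, Real.norm_eq_abs,
        abs_of_pos (pow_pos h0 k), mul_comm]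
      exact mul_le_mul_of_nonneg_right (hM s ⟨h0, hs.2.le.trans hr.2⟩) (pow_pos h0 k).le
  have hB : ∀ s, HasDerivAt (fun s : ℝ => M * s ^ (k + 1) / (k + 1)) (M * s ^ k) s := by
    intro s
    have := ((hasDerivAt_pow (k + 1) s).const_mul M).div_const ((k : ℝ) + 1)
    refine this.congr_deriv ?_
    have hk1 : (k : ℝ) + 1 ≠ 0 := by positivity
    push_cast
    field_simp
  have hmain := image_norm_le_of_norm_deriv_right_le_deriv_boundary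
    (f := fun s : ℝ => ((s ^ k : ℝ) : ℂ) * (e s * q1 s)) (a := 0) (b := r)
    (fun s hs => (hy s).continuousAt.continuousWithinAt)
    (fun s hs => (hy s).hasDerivWithinAt) (B := fun s : ℝ => M * s ^ (k + 1) / (k + 1))
    (by simp [h10]) hB (fun s hs => hbd s hs) (right_mem_Icc.2 hr.1)
  rcases eq_or_lt_of_le hr.1 with h0 | h0
  · rw [← h0, h10]; simp
  · rw [norm_mul, norm_mul, hen, one_mul, Complex.norm_real, Real.norm_eq_abs,
      abs_of_pos (pow_pos h0 k)] at hmain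
    have e3 : M * r ^ (k + 1) / (k + 1) = r ^ k * (M * r / (k + 1)) := by rw [pow_succ]; ring
    rw [e3] at hmain
    exact le_of_mul_le_mul_left hmain (pow_pos h0 k)

theorem norm_W1 (m : ℕ) (z : ℂ) : ‖BU.W1 m z‖ = ‖z‖ ^ (2 * m) := by
  rw [BU.W1, norm_pow, norm_mul, Complex.norm_conj, ← sq, ← pow_mul]

/-- Derivative bounds on `(0,b]` from two-sided bounds of the modulus and the potential. -/
theorem deriv_bounds {d m : ℕ} (hd : 2 ≤ d) {w b c0 P0 : ℝ} {q h : ℝ → ℂ}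
    (hh : ContDiff ℝ ∞ h) (hq : ∀ r, q r = h (r ^ 2)) (hw : |w| ≤ 1) (hm : 1 ≤ m)
    (hc0 : 0 ≤ c0) (hP0 : 0 ≤ P0)
    (ode : ∀ r : ℝ, 0 < r → deriv (deriv q) r + ((((d : ℝ) - 1) / r : ℝ) + I * (r / 2 : ℝ)) *
      deriv q r + ((w : ℂ) + I * (BU.aa m : ℂ)) * q r = BU.W1 m (q r) * q r)
    (hq0 : ∀ r ∈ Ioc 0 b, ‖q r‖ ≤ c0) (hP : ∀ r ∈ Ioc 0 b, ‖q r‖ ^ (2 * m) ≤ P0) :
    ∀ r ∈ Ioc 0 b, ‖deriv q r‖ ≤ (P0 + 2) * c0 * r ∧
      ‖deriv (deriv q) r‖ ≤ (P0 + 2) * c0 * (2 + b ^ 2 / 2) := by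
  obtain ⟨k, rfl⟩ : ∃ k, d = k + 1 := ⟨d - 1, by omega⟩
  have hk : 1 ≤ k := by omega
  have hqs : ContDiff ℝ ∞ q := by
    have : q = fun r => h (r ^ 2) := funext hq
    rw [this]
    exact hh.comp (contDiff_id.pow 2)
  have hd1 : ∀ r, HasDerivAt q (deriv q r) r := fun r =>
    (hqs.differentiable (by simp)).differentiableAt.hasDerivAt
  have hqs1 : ContDiff ℝ ∞ (deriv q) := ((contDiff_infty_iff_deriv).1 hqs).2
  have hd2 : ∀ r, HasDerivAt (deriv q) (deriv (deriv q) r) r := fun r =>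
    (hqs1.differentiable (by simp)).differentiableAt.hasDerivAt
  have hd0 := deriv_zero_of_sq hh hq
  have haa0 : 0 ≤ BU.aa m := by rw [BU.aa]; positivity
  have haa1 : BU.aa m ≤ 1 := by
    rw [BU.aa, div_le_one (by positivity)]
    have : (1 : ℝ) ≤ m := by exact_mod_cast hm
    linarith
  have hwa : ‖(w : ℂ) + I * (BU.aa m : ℂ)‖ ≤ 2 := by
    refine (norm_add_le _ _).trans ?_
    rw [norm_mul, Complex.norm_I, one_mul, Complex.norm_real, Complex.norm_real,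
      Real.norm_eq_abs, Real.norm_eq_abs, abs_of_nonneg haa0]
    linarith
  have hM : ∀ r ∈ Ioc 0 b,
      ‖deriv (deriv q) r + ((((k : ℝ) / r : ℝ) : ℂ) + I * (r / 2 : ℝ)) * deriv q r‖ ≤
        (P0 + 2) * c0 := by
    intro r hr
    have h1 := ode r hr.1
    have h2 : deriv (deriv q) r + ((((k : ℝ) / r : ℝ) : ℂ) + I * (r / 2 : ℝ)) * deriv q r =
        (BU.W1 m (q r) - ((w : ℂ) + I * (BU.aa m : ℂ))) * q r := by
      have e : (((k + 1 : ℕ) : ℝ) - 1) / r = (k : ℝ) / r := by push_cast; ring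
      rw [e] at h1
      linear_combination h1
    rw [h2, norm_mul]
    have h3 : ‖BU.W1 m (q r) - ((w : ℂ) + I * (BU.aa m : ℂ))‖ ≤ P0 + 2 := by
      refine (norm_sub_le _ _).trans ?_
      rw [norm_W1]
      exact add_le_add (hP r hr) hwa
    exact mul_le_mul h3 (hq0 r hr) (norm_nonneg _) (by positivity)
  intro r hr
  have hM0 : 0 ≤ (P0 + 2) * c0 := by positivity
  have h1 := deriv_le_of_ode hk hd2 hd0 hM r ⟨hr.1.le, hr.2⟩
  have hr0 := hr.1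
  have h2 : (P0 + 2) * c0 * r / (k + 1) ≤ (P0 + 2) * c0 * r := by
    apply div_le_self (by positivity)
    have : (0 : ℝ) ≤ k := by positivity
    linarith
  refine ⟨h1.trans h2, ?_⟩
  have h3 : deriv (deriv q) r = (deriv (deriv q) r +
      ((((k : ℝ) / r : ℝ) : ℂ) + I * (r / 2 : ℝ)) * deriv q r) -
      (((((k : ℝ) / r : ℝ) : ℂ) + I * (r / 2 : ℝ)) * deriv q r) := by ring
  rw [h3]
  refine (norm_sub_le _ _).trans ?_
  have h4 : ‖(((((k : ℝ) / r : ℝ) : ℂ) + I * (r / 2 : ℝ)) * deriv q r)‖ ≤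
      (P0 + 2) * c0 * (1 + b ^ 2 / 2) := by
    rw [norm_mul]
    have h5 : ‖((((k : ℝ) / r : ℝ) : ℂ) + I * (r / 2 : ℝ))‖ ≤ k / r + r / 2 := by
      refine (norm_add_le _ _).trans ?_
      rw [norm_mul, Complex.norm_I, one_mul, Complex.norm_real, Complex.norm_real,
        Real.norm_eq_abs, Real.norm_eq_abs, abs_of_nonneg (by positivity),
        abs_of_nonneg (by positivity)]
    calc ‖((((k : ℝ) / r : ℝ) : ℂ) + I * (r / 2 : ℝ))‖ * ‖deriv q r‖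
        ≤ (k / r + r / 2) * ((P0 + 2) * c0 * r / (k + 1)) :=
          mul_le_mul h5 h1 (norm_nonneg _) (by positivity)
      _ = (P0 + 2) * c0 * (k / (k + 1) + r ^ 2 / (2 * (k + 1))) := by
          field_simp
      _ ≤ (P0 + 2) * c0 * (1 + b ^ 2 / 2) := by
          apply mul_le_mul_of_nonneg_left _ hM0
          apply add_le_add
          · rw [div_le_one (by positivity)]; linarith
          · have h6 : r ^ 2 ≤ b ^ 2 := pow_le_pow_left₀ hr0.le hr.2 2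
            calc r ^ 2 / (2 * ((k : ℝ) + 1)) ≤ r ^ 2 / 2 := by
                  apply div_le_div_of_nonneg_left (by positivity) (by norm_num)
                  have : (0 : ℝ) ≤ k := by positivity
                  linarith
              _ ≤ b ^ 2 / 2 := by linarith
  have h5 := hM r hr
  calc _ ≤ (P0 + 2) * c0 + (P0 + 2) * c0 * (1 + b ^ 2 / 2) := add_le_add h5 h4
    _ = _ := by ring

/-- Modulus bounds beyond the hitting radius. -/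
theorem outer_mod {R b c0 C0 cz Cz eps : ℝ} {q q1 Z Z1 : ℝ → ℂ}
    (hZ : ∀ r ∈ Icc R b, cz ≤ ‖Z r‖ ∧ ‖Z r‖ ≤ Cz ∧ ‖Z1 r‖ ≤ Cz)
    {z : ℂ} (hz : ‖z‖ = 1) (hc : ∀ r ∈ Icc R b, ‖q r - z * Z r‖ ≤ eps ∧ ‖q1 r - z * Z1 r‖ ≤ eps)
    (heps : eps ≤ cz / 2) (hc0 : c0 ≤ cz / 2) (hC0 : Cz + cz ≤ C0) :
    ∀ r ∈ Icc R b, c0 ≤ ‖q r‖ ∧ ‖q r‖ ≤ C0 := by
  intro r hr
  obtain ⟨h2, h3, -⟩ := hZ r hr
  have h4 := (hc r hr).1
  have h5 : ‖z * Z r‖ = ‖Z r‖ := by rw [norm_mul, hz, one_mul]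
  have h6 := norm_sub_norm_le (z * Z r) (q r)
  rw [h5, norm_sub_rev] at h6
  have h7 := norm_sub_norm_le (q r) (z * Z r)
  rw [h5] at h7
  have h8 : 0 ≤ eps := (norm_nonneg _).trans h4
  constructor <;> linarith

/-- Two-sided bounds of the modulus and bound of the potential on `(0,b]`. -/
theorem up_mod {d m0 : ℕ} (hd : 2 ≤ d) {w R : ℕ → ℝ} {q : ℕ → ℝ → ℂ}
    (wbd : ∃ w1 > 0, ∀ m, m0 ≤ m → w1 ≤ w m ∧ w m ≤ 1)
    (Rbd : ∃ R1 > 0, ∃ R2, ∀ m, m0 ≤ m → R1 ≤ R m ∧ R m ≤ R2)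
    (above : ∀ m, m0 ≤ m → ∀ r ∈ Icc (0 : ℝ) (R m), w m / 2 ≤ ‖q m r‖ ^ (2 * m))
    (core : ∃ C > 0, ∃ m1 : ℕ, ∀ m, m1 ≤ m → ∀ r ∈ Icc (0 : ℝ) (R m),
      ‖q m r‖ ^ (2 * m) ≤ w m + C / m)
    (layer : ∃ η0 > 0, ∃ c > 0, ∃ m1 : ℕ, ∀ m, m1 ≤ m → ∀ r ∈ Ioc (R m) (R m + η0),
      ‖q m r‖ ^ (2 * m) ≤ (w m / 2) * Real.exp (-(c * m * (r - R m) ^ 2)) ∧
      (conj (q m r) * deriv (q m) r).re < 0)
    (close : ∀ b : ℝ, ∃ C : ℝ, ∃ m1 : ℕ, ∀ m, m1 ≤ m → ∀ Z Z1 : ℝ → ℂ,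
      ContinuousOn Z (Icc (R m) b) → ContinuousOn Z1 (Icc (R m) b) →
      BU.LinInf d (w m) Z Z1 (Ioo (R m) b) → Z (R m) = 1 → Z1 (R m) = 0 →
      ∃ z : ℂ, ‖z‖ = 1 ∧ ∀ r ∈ Icc (R m) b,
        ‖q m r - z * Z r‖ ≤ C / Real.sqrt m ∧ ‖deriv (q m) r - z * Z1 r‖ ≤ C / Real.sqrt m)
    (out : ∀ η : ℝ, 0 < η → ∃ θ : ℝ, 0 < θ ∧ θ < 1 ∧ ∃ m1 : ℕ, ∀ m, m1 ≤ m →
      ∀ r : ℝ, R m + η ≤ r → ‖q m r‖ ≤ θ * (1 + r) ^ (-(2 * BU.aa m))) (b : ℝ) :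
    ∃ c > 0, ∃ C : ℝ, 1 ≤ C ∧ ∃ m1 : ℕ, m0 ≤ m1 ∧ 1 ≤ m1 ∧ ∀ m, m1 ≤ m → ∀ r ∈ Ioc (0 : ℝ) b,
      c ≤ ‖q m r‖ ∧ ‖q m r‖ ≤ C ∧ ‖q m r‖ ^ (2 * m) ≤ C := by
  obtain ⟨w1, hw1, hw⟩ := wbd
  obtain ⟨R1, hR1, R2, hRR⟩ := Rbd
  obtain ⟨Cc, hCc, mc, hcore⟩ := core
  obtain ⟨η0, hη0, cl, hcl, ml, hlayer⟩ := layer
  obtain ⟨B, hBb, hBR⟩ : ∃ B, b ≤ B ∧ R2 < B :=
    ⟨max b (R2 + 1), le_max_left _ _, lt_of_lt_of_le (by linarith) (le_max_right b (R2 + 1))⟩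
  obtain ⟨Cl, mcl, hclose⟩ := close B
  obtain ⟨θ, hθ0, hθ1, mo, hout⟩ := out η0 hη0
  obtain ⟨cz, hcz, Cz, hCz, hZ⟩ := linInf_bounds (d := d) (by omega) hR1 hBR
  obtain ⟨N, hN⟩ : ∃ N : ℕ, ∀ m : ℕ, N ≤ m → Cl / Real.sqrt m ≤ cz / 2 := by
    have h1 : Tendsto (fun m : ℕ => Cl / Real.sqrt m) atTop (𝓝 0) :=
      (Real.tendsto_sqrt_atTop.comp tendsto_natCast_atTop_atTop).const_div_atTop Cl
    have h2 := h1.eventually (ge_mem_nhds (show (0 : ℝ) < cz / 2 by positivity))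
    exact eventually_atTop.1 h2
  refine ⟨min (min (w1 / 2) 1) (cz / 2), lt_min (lt_min (by positivity) one_pos) (by positivity),
    max (2 + Cc) (Cz + cz), le_trans (by linarith) (le_max_left _ _),
    m0 + mc + ml + mcl + mo + N + 1, by omega, by omega, ?_⟩
  intro m hm r hr
  have hm0 : m0 ≤ m := by omega
  have hmR : (1 : ℝ) ≤ m := by exact_mod_cast (show 1 ≤ m by omega)
  obtain ⟨hwl, hwu⟩ := hw m hm0
  obtain ⟨hRl, hRu⟩ := hRR m hm0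
  have hw0 : 0 < w m := hw1.trans_le hwl
  have hn0 : 2 * m ≠ 0 := by omega
  rcases le_or_gt r (R m) with h1 | h1
  · have hrI : r ∈ Icc 0 (R m) := ⟨hr.1.le, h1⟩
    have h2 := above m hm0 r hrI
    have h3 := hcore m (by omega) r hrI
    have h4 : Cc / m ≤ Cc := div_le_self hCc.le hmR
    have h5 : ‖q m r‖ ^ (2 * m) ≤ 2 + Cc := by linarith
    refine ⟨?_, (norm_le_of_pow_le (by linarith) hn0 h5).trans (le_max_left _ _),
      h5.trans (le_max_left _ _)⟩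
    have h6 : min (min (w1 / 2) 1) (cz / 2) ≤ ‖q m r‖ ^ (2 * m) := by
      have : min (min (w1 / 2) 1) (cz / 2) ≤ w1 / 2 := (min_le_left _ _).trans (min_le_left _ _)
      linarith
    exact le_norm_of_le_pow (norm_nonneg _)
      ((min_le_left _ _).trans (min_le_right _ _)) hn0 h6
  · obtain ⟨Z, Z1, hZc, hZ1c, hlin, hZR, hZ1R, hZb⟩ := hZ (R m) (w m) hRl hRu hw0.le hwu
    obtain ⟨z, hz, hzc⟩ := hclose m (by omega) Z Z1 hZc.continuousOn hZ1c.continuousOn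
      ⟨fun s hs => hlin.h1 s ⟨hs.1.le, hs.2.le⟩, fun s hs => hlin.h2 s ⟨hs.1.le, hs.2.le⟩⟩
      hZR hZ1R
    obtain ⟨e1, e2⟩ := outer_mod (q1 := deriv (q m)) hZb hz hzc
      (hN m (by omega)) (min_le_right (min (w1 / 2) 1) (cz / 2)) (le_max_right (2 + Cc) (Cz + cz))
      r ⟨h1.le, hr.2.trans hBb⟩
    refine ⟨e1, e2, ?_⟩
    have h8 : ‖q m r‖ ^ (2 * m) ≤ 1 := by
      rcases le_or_gt r (R m + η0) with h9 | h9
      · have h10 := (hlayer m (by omega) r ⟨h1, h9⟩).1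
        have h11 : Real.exp (-(cl * m * (r - R m) ^ 2)) ≤ 1 := by
          apply Real.exp_le_one_iff.2
          have : 0 ≤ cl * m * (r - R m) ^ 2 := by positivity
          linarith
        nlinarith
      · have h10 := hout m (by omega) r h9.le
        have h11 : (1 + r) ^ (-(2 * BU.aa m)) ≤ 1 := by
          apply Real.rpow_le_one_of_one_le_of_nonpos (by linarith [hr.1])
          have : 0 ≤ BU.aa m := by rw [BU.aa]; positivity
          linarith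
        have h12 : ‖q m r‖ ≤ 1 := by
          refine h10.trans ?_
          have : 0 ≤ (1 + r) ^ (-(2 * BU.aa m)) := Real.rpow_nonneg (by linarith [hr.1]) _
          nlinarith
        exact pow_le_one₀ (norm_nonneg _) h12
    exact h8.trans (le_trans (by linarith) (le_max_left (2 + Cc) (Cz + cz)))

/-- [UP.bd], verbatim, from the other fields of `UP`. -/
theorem up_bd {d m0 : ℕ} (hd : 2 ≤ d) {w R : ℕ → ℝ} {q : ℕ → ℝ → ℂ}
    (rad : ∀ m, m0 ≤ m → ∃ h : ℝ → ℂ, ContDiff ℝ ∞ h ∧ ∀ r, q m r = h (r ^ 2))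
    (ode : ∀ m, m0 ≤ m → ∀ r : ℝ, 0 < r →
      deriv (deriv (q m)) r + ((((d : ℝ) - 1) / r : ℝ) + I * (r / 2 : ℝ)) * deriv (q m) r
        + ((w m : ℂ) + I * (BU.aa m : ℂ)) * q m r = BU.W1 m (q m r) * q m r)
    (wbd : ∃ w1 > 0, ∀ m, m0 ≤ m → w1 ≤ w m ∧ w m ≤ 1)
    (Rbd : ∃ R1 > 0, ∃ R2, ∀ m, m0 ≤ m → R1 ≤ R m ∧ R m ≤ R2)
    (above : ∀ m, m0 ≤ m → ∀ r ∈ Icc (0 : ℝ) (R m), w m / 2 ≤ ‖q m r‖ ^ (2 * m))
    (core : ∃ C > 0, ∃ m1 : ℕ, ∀ m, m1 ≤ m → ∀ r ∈ Icc (0 : ℝ) (R m),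
      ‖q m r‖ ^ (2 * m) ≤ w m + C / m)
    (layer : ∃ η0 > 0, ∃ c > 0, ∃ m1 : ℕ, ∀ m, m1 ≤ m → ∀ r ∈ Ioc (R m) (R m + η0),
      ‖q m r‖ ^ (2 * m) ≤ (w m / 2) * Real.exp (-(c * m * (r - R m) ^ 2)) ∧
      (conj (q m r) * deriv (q m) r).re < 0)
    (close : ∀ b : ℝ, ∃ C : ℝ, ∃ m1 : ℕ, ∀ m, m1 ≤ m → ∀ Z Z1 : ℝ → ℂ,
      ContinuousOn Z (Icc (R m) b) → ContinuousOn Z1 (Icc (R m) b) →
      BU.LinInf d (w m) Z Z1 (Ioo (R m) b) → Z (R m) = 1 → Z1 (R m) = 0 →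
      ∃ z : ℂ, ‖z‖ = 1 ∧ ∀ r ∈ Icc (R m) b,
        ‖q m r - z * Z r‖ ≤ C / Real.sqrt m ∧ ‖deriv (q m) r - z * Z1 r‖ ≤ C / Real.sqrt m)
    (out : ∀ η : ℝ, 0 < η → ∃ θ : ℝ, 0 < θ ∧ θ < 1 ∧ ∃ m1 : ℕ, ∀ m, m1 ≤ m →
      ∀ r : ℝ, R m + η ≤ r → ‖q m r‖ ≤ θ * (1 + r) ^ (-(2 * BU.aa m))) :
    ∀ b : ℝ, 0 < b → ∃ c > 0, ∃ C : ℝ, ∃ m1 : ℕ, ∀ m, m1 ≤ m → ∀ r ∈ Ioc (0 : ℝ) b,
      c ≤ ‖q m r‖ ∧ ‖q m r‖ ≤ C ∧ ‖deriv (q m) r‖ ≤ C * r ∧
      ‖deriv (deriv (q m)) r‖ ≤ C ∧ ‖q m r‖ ^ (2 * m) ≤ C := by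
  intro b hb
  obtain ⟨c, hc, C, hC, m1, hm01, hm11, hmod⟩ :=
    up_mod hd wbd Rbd above core layer close out b
  obtain ⟨w1, hw1, hw⟩ := wbd
  refine ⟨c, hc, (C + 2) * C * (2 + b ^ 2 / 2), m1, fun m hm r hr => ?_⟩
  have hm0 : m0 ≤ m := hm01.trans hm
  obtain ⟨hwl, hwu⟩ := hw m hm0
  have hw0 : 0 < w m := hw1.trans_le hwl
  obtain ⟨h, hh, hq⟩ := rad m hm0
  have hder := deriv_bounds (b := b) (c0 := C) (P0 := C) hd hh hq
    (by rw [abs_of_pos hw0]; exact hwu) (hm11.trans hm) (by linarith) (by linarith) (ode m hm0)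
    (fun r hr => (hmod m hm r hr).2.1) (fun r hr => (hmod m hm r hr).2.2) r hr
  obtain ⟨e1, e2, e3⟩ := hmod m hm r hr
  have h0 : 0 ≤ (C + 2) * C := by positivity
  have h1 : (C + 2) * C * 1 ≤ (C + 2) * C * (2 + b ^ 2 / 2) :=
    mul_le_mul_of_nonneg_left (by nlinarith [sq_nonneg b]) h0
  have h2 : C ≤ (C + 2) * C := by nlinarith
  refine ⟨e1, by linarith, hder.1.trans ?_, hder.2, by linarith⟩
  apply mul_le_mul_of_nonneg_right _ hr.1.le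
  linarith

end Vale.Agent.P139.H844
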