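import Vale.Agent.P139.H844.Core6
import Vale.Agent.P139.BU.UP

/-!
# P139 / H844 : the fields `core` and `mono` of the package `UP`
-/

open scoped ComplexConjugate ContDiff Topology
open Complex Filter Set

namespace Vale.Agent.P139.H844

open H460

/-- The derivative at the origin of a function of `r^2` vanishes. -/
theorem deriv_zero_of_sq {q h : ℝ → ℂ} (hh : ContDiff ℝ ∞ h) (hq : ∀ r, q r = h (r ^ 2)) :
    deriv q 0 = 0 := by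
  have h1 : q = fun r => h (r ^ 2) := funext hq
  have h2 : HasDerivAt h (deriv h ((0 : ℝ) ^ 2)) ((0 : ℝ) ^ 2) :=
    (hh.differentiable (by simp)).differentiableAt.hasDerivAt
  have h3 : HasDerivAt (fun r : ℝ => r ^ 2) (2 * (0 : ℝ)) 0 := by
    simpa using hasDerivAt_pow 2 (0 : ℝ)
  have h4 : HasDerivAt (fun r : ℝ => h (r ^ 2)) ((2 * (0 : ℝ)) • deriv h ((0 : ℝ) ^ 2)) 0 :=
    HasDerivAt.scomp (0 : ℝ) h2 h3
  rw [h1, h4.deriv]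
  simp

/-- [UP.core], all estimates at once, including the upper bound of `Re (q'/q)`. -/
theorem core_all {d m0 : ℕ} (hd : 4 ≤ d) {w R b q0 : ℕ → ℝ} {q q1 : ℕ → ℝ → ℂ}
    (wbd : ∃ w1 > 0, ∀ m, m0 ≤ m → w1 ≤ w m ∧ w m ≤ 1)
    (hq0 : ∀ m, m0 ≤ m → 0 < q0 m) (hR4 : ∀ m, m0 ≤ m → R m ≤ 4)
    (hRb : ∀ m, m0 ≤ m → R m < b m)
    (hreg : ∀ m, m0 ≤ m → RegSol d (2 * m) (w m) (q0 m) (b m) (q m) (q1 m))
    (hhit : ∀ m, m0 ≤ m → FirstHit (2 * m) (w m) (q m) (R m))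
    (hd0 : ∀ m, m0 ≤ m → deriv (q m) 0 = 0) :
    ∃ C > 0, ∃ m1 : ℕ, ∀ m, m1 ≤ m → ∀ r ∈ Icc (0 : ℝ) (R m),
      (‖q m r‖ ^ (2 * m) ≤ w m + C / m ∧
      w m * (1 - C / m - 2 * Real.exp (-(Real.sqrt m / C) * (R m - r))) ≤ ‖q m r‖ ^ (2 * m) ∧
      ‖deriv (q m) r‖ ≤ C / Real.sqrt m ∧
      |(deriv (q m) r / q m r).im| ≤ C * r / m) ∧
      (deriv (q m) r / q m r).re ≤ C / (m : ℝ) ^ 2 := by
  obtain ⟨w1, hw1, hw⟩ := wbd
  obtain ⟨C, hC, N, h⟩ := coreStatement d hd (min w1 1) 1 (lt_min hw1 one_pos) (min_le_right _ _)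
    le_rfl
  refine ⟨C, hC, max (max m0 N) 1, fun m hm r hr => ?_⟩
  have hm0 : m0 ≤ m := le_trans (le_trans (le_max_left _ _) (le_max_left _ _)) hm
  have hmN : N ≤ 2 * m := by
    have : N ≤ m := le_trans (le_trans (le_max_right _ _) (le_max_left _ _)) hm
    omega
  have hm1 : 1 ≤ m := le_trans (le_max_right _ _) hm
  have hmR : (1 : ℝ) ≤ m := by exact_mod_cast hm1
  have hm0' : (0 : ℝ) < m := by linarith
  obtain ⟨hwl, hwu⟩ := hw m hm0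
  have hw0 : 0 < w m := hw1.trans_le hwl
  have hder : deriv (q m) r = q1 m r := by
    rcases eq_or_lt_of_le hr.1 with h0 | h0
    · rw [← h0, hd0 m hm0, (hreg m hm0).Q10]
    · exact ((hreg m hm0).ode.h1 r ⟨h0, hr.2.trans_lt (hRb m hm0)⟩).deriv
  obtain ⟨e1, e2, -, e4, e5, e6⟩ := h (2 * m) hmN (w m) ⟨(min_le_left _ _).trans hwl, hwu⟩ (q0 m)
    (hq0 m hm0) (b m) (R m) (hR4 m hm0) (hRb m hm0) (q m) (q1 m) (hreg m hm0) (hhit m hm0)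
  have c2 : ((2 * m : ℕ) : ℝ) = 2 * m := by push_cast; ring
  rw [c2] at e1 e2 e4 e5 e6
  have hCm : C / (2 * m) ≤ C / m := div_le_div_of_nonneg_left hC.le hm0' (by linarith)
  have hs : Real.sqrt m ≤ Real.sqrt (2 * m) := Real.sqrt_le_sqrt (by linarith)
  have hs0 : 0 < Real.sqrt m := Real.sqrt_pos.2 hm0'
  rw [hder]
  refine ⟨⟨?_, ?_, ?_, ?_⟩, ?_⟩
  · have := e1 r hr; linarith
  · refine le_trans ?_ (e4 r hr)
    apply mul_le_mul_of_nonneg_left _ hw0.le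
    have h1 : Real.exp (-(Real.sqrt (2 * m) / C) * (R m - r)) ≤
        Real.exp (-(Real.sqrt m / C) * (R m - r)) := by
      apply Real.exp_le_exp.2
      have h2 : Real.sqrt m / C ≤ Real.sqrt (2 * m) / C := div_le_div_of_nonneg_right hs hC.le
      have h3 : 0 ≤ R m - r := by linarith [hr.2]
      nlinarith
    linarith
  · refine (e2 r hr).trans (div_le_div_of_nonneg_left hC.le hs0 hs)
  · refine (e5 r hr).trans (div_le_div_of_nonneg_left (mul_nonneg hC.le hr.1) hm0' (by linarith))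
  · refine (e6 r hr).trans (div_le_div_of_nonneg_left hC.le (by positivity) ?_)
    nlinarith

/-- [UP.core], verbatim. -/
theorem up_core {d m0 : ℕ} (hd : 4 ≤ d) {w R b q0 : ℕ → ℝ} {q q1 : ℕ → ℝ → ℂ}
    (wbd : ∃ w1 > 0, ∀ m, m0 ≤ m → w1 ≤ w m ∧ w m ≤ 1)
    (hq0 : ∀ m, m0 ≤ m → 0 < q0 m) (hR4 : ∀ m, m0 ≤ m → R m ≤ 4)
    (hRb : ∀ m, m0 ≤ m → R m < b m)
    (hreg : ∀ m, m0 ≤ m → RegSol d (2 * m) (w m) (q0 m) (b m) (q m) (q1 m))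
    (hhit : ∀ m, m0 ≤ m → FirstHit (2 * m) (w m) (q m) (R m))
    (hd0 : ∀ m, m0 ≤ m → deriv (q m) 0 = 0) :
    ∃ C > 0, ∃ m1 : ℕ, ∀ m, m1 ≤ m → ∀ r ∈ Icc (0 : ℝ) (R m),
      ‖q m r‖ ^ (2 * m) ≤ w m + C / m ∧
      w m * (1 - C / m - 2 * Real.exp (-(Real.sqrt m / C) * (R m - r))) ≤ ‖q m r‖ ^ (2 * m) ∧
      ‖deriv (q m) r‖ ≤ C / Real.sqrt m ∧
      |(deriv (q m) r / q m r).im| ≤ C * r / m := by
  obtain ⟨C, hC, m1, h⟩ := core_all hd wbd hq0 hR4 hRb hreg hhit hd0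
  exact ⟨C, hC, m1, fun m hm r hr => (h m hm r hr).1⟩

/-- [UP.mono], verbatim, from the core and the layer. -/
theorem up_mono {d m0 : ℕ} (hd : 4 ≤ d) {w R b q0 : ℕ → ℝ} {q q1 : ℕ → ℝ → ℂ}
    (wbd : ∃ w1 > 0, ∀ m, m0 ≤ m → w1 ≤ w m ∧ w m ≤ 1)
    (hq0 : ∀ m, m0 ≤ m → 0 < q0 m) (hR4 : ∀ m, m0 ≤ m → R m ≤ 4)
    (hRb : ∀ m, m0 ≤ m → R m < b m)
    (hreg : ∀ m, m0 ≤ m → RegSol d (2 * m) (w m) (q0 m) (b m) (q m) (q1 m))
    (hhit : ∀ m, m0 ≤ m → FirstHit (2 * m) (w m) (q m) (R m))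
    (hd0 : ∀ m, m0 ≤ m → deriv (q m) 0 = 0)
    (layer : ∃ η0 > 0, ∃ c > 0, ∃ m1 : ℕ, ∀ m, m1 ≤ m → ∀ r ∈ Ioc (R m) (R m + η0),
      ‖q m r‖ ^ (2 * m) ≤ (w m / 2) * Real.exp (-(c * m * (r - R m) ^ 2)) ∧
      (conj (q m r) * deriv (q m) r).re < 0) :
    ∃ η0 > 0, ∃ C : ℝ, ∃ m1 : ℕ, ∀ m, m1 ≤ m → ∀ r ∈ Ioc (0 : ℝ) (R m + η0),
      (deriv (q m) r / q m r).re ≤ C / (m : ℝ) ^ 2 := by
  obtain ⟨C, hC, m1, h⟩ := core_all hd wbd hq0 hR4 hRb hreg hhit hd0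
  obtain ⟨η0, hη0, c, -, m2, hl⟩ := layer
  refine ⟨η0, hη0, C, max m1 m2, fun m hm r hr => ?_⟩
  rcases le_or_gt r (R m) with h1 | h1
  · exact (h m ((le_max_left _ _).trans hm) r ⟨hr.1.le, h1⟩).2
  · have h2 := (hl m ((le_max_right _ _).trans hm) r ⟨h1, hr.2⟩).2
    have h3 : (deriv (q m) r / q m r).re =
        (conj (q m r) * deriv (q m) r).re / Complex.normSq (q m r) := by
      rw [Complex.div_re]
      simp
      ring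
    rw [h3]
    exact (div_nonpos_of_nonpos_of_nonneg h2.le (Complex.normSq_nonneg _)).trans (by positivity)

end Vale.Agent.P139.H844
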