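import Vale.Agent.P139.H844.Core5

/-!
# P139 / H844 : core estimates, part 6 : proof of `CoreStatement`
-/

open Set Filter Topology

namespace Vale.Agent.P139.H844

namespace CoreSys

variable {k n : ℕ} {w T b Λ : ℝ} {q q1 J : ℝ → ℝ}

/-- Transversal crossing of the level `w/2`. -/
theorem q1_T_neg (h : CoreSys k n w T q q1 J) (c : Cst n w b Λ) (hTb : T ≤ b) (hk : 3 ≤ k)
    (hn3 : 2 * ((2 * Λ + 1) * b ^ 2) < w * n) : q1 T < 0 := by
  have hn := n_pos c
  have hΛ := c.hΛ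
  have hw := c.hw
  have hT := h.hT
  have hTI : T ∈ Icc 0 T := ⟨hT.le, le_rfl⟩
  refine lt_of_le_of_ne (h.q1_T (n_ne c)) ?_
  intro hz
  have hqT := h.pos T hTI
  -- the derivative of `r^k q1` at `T` is negative
  have hd := h.der2 T ⟨hT, le_rfl⟩
  have hB := (abs_le.1 (h.abs_B_sub c hTb hk T ⟨hT, le_rfl⟩)).1
  have h5 : (2 * Λ + 1) * T ^ 2 / n < w / 2 := by
    rw [div_lt_iff₀ hn]
    have h6 : T ^ 2 ≤ b ^ 2 := pow_le_pow_left₀ hT.le hTb 2
    have h7 : (2 * Λ + 1) * T ^ 2 ≤ (2 * Λ + 1) * b ^ 2 :=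
      mul_le_mul_of_nonneg_left h6 (by positivity)
    linarith
  have hneg : T ^ k * ((min (q T ^ n) 4 - (w + T ^ 2 / 16 - J T ^ 2)) * q T) < 0 := by
    rw [h.min_eq c hTb T hTI, h.hit]
    have h8 : w / 2 - (w + T ^ 2 / 16 - J T ^ 2) < 0 := by linarith
    have h9 : 0 < T ^ k := pow_pos hT k
    have h10 := mul_neg_of_neg_of_pos h8 hqT
    exact mul_neg_of_pos_of_neg h9 h10
  have h2 : Tendsto (slope (fun s => s ^ k * q1 s) T) (𝓝[<] T)
      (𝓝 (T ^ k * ((min (q T ^ n) 4 - (w + T ^ 2 / 16 - J T ^ 2)) * q T))) :=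
    (hasDerivAt_iff_tendsto_slope.1 hd).mono_left (nhdsWithin_mono _ (fun x hx => ne_of_lt hx))
  have h3 := (h2.eventually (gt_mem_nhds hneg)).and (Ioo_mem_nhdsLT hT)
  obtain ⟨l, hl, hl'⟩ := (mem_nhdsLT_iff_exists_Ioo_subset' (show (0 : ℝ) < T from hT)).1 h3
  set l' : ℝ := max l 0 with hl'def
  have hl'T : l' < T := max_lt hl hT
  have hmem : ∀ s ∈ Ioo l' T, 0 < q1 s := by
    intro s hs
    have hs' := hl' (show s ∈ Ioo l T from ⟨(le_max_left _ _).trans_lt hs.1, hs.2⟩)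
    have hs1 : slope (fun s => s ^ k * q1 s) T s < 0 := hs'.1
    rw [slope_def_field, hz, mul_zero, sub_zero] at hs1
    have hs0 : 0 < s := (le_max_right _ _).trans_lt hs.1
    have h4 : s - T < 0 := by linarith [hs.2]
    have h6 : 0 < s ^ k * q1 s := by
      by_contra hcon
      push Not at hcon
      exact absurd hs1 (not_lt.2 (div_nonneg_of_nonpos hcon h4.le))
    exact (pos_iff_pos_of_mul_pos h6).1 (pow_pos hs0 k)
  have hlt := lt_of_deriv_pos (z := q) (z1 := q1) hl'T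
    (h.cont.mono (Icc_subset_Icc (le_max_right _ _) le_rfl))
    (fun r hr => h.der r ⟨(le_max_right _ _).trans_lt hr.1, hr.2.le⟩) hmem
  have hl0 : l' ∈ Icc 0 T := ⟨le_max_right _ _, hl'T.le⟩
  have h7 := pow_lt_pow_left₀ hlt (h.pos l' hl0).le (n_ne c)
  rw [h.hit] at h7
  exact absurd (h.low l' hl0) (not_le.2 h7)

end CoreSys

open CoreSys H460

theorem norm_Q1_le {Q Q1 : ℝ → ℂ} {r : ℝ} (h0 : Q r ≠ 0) :
    ‖Q1 r‖ ≤ |q1f Q Q1 r| + ‖Q r‖ * |Jf Q Q1 r - r / 4| := by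
  have hq : 0 < ‖Q r‖ := norm_pos_iff.2 h0
  have hL := Lagrange_id Q Q1 r
  rw [← norm_sq_eq] at hL
  have e1 : Af Q Q1 r = ‖Q r‖ * q1f Q Q1 r := by rw [q1f]; field_simp
  have e2 : Gf Q Q1 r = ‖Q r‖ ^ 2 * (Jf Q Q1 r - r / 4) := by rw [Jf]; field_simp; ring
  have h1 : ‖Q1 r‖ ^ 2 = q1f Q Q1 r ^ 2 + (‖Q r‖ * (Jf Q Q1 r - r / 4)) ^ 2 := by
    have h2 : ‖Q1 r‖ ^ 2 * ‖Q r‖ ^ 2 =
        (q1f Q Q1 r ^ 2 + (‖Q r‖ * (Jf Q Q1 r - r / 4)) ^ 2) * ‖Q r‖ ^ 2 := by
      rw [hL, e1, e2]; ring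
    exact mul_right_cancel₀ (by positivity) h2
  have h3 : 0 ≤ |q1f Q Q1 r| + ‖Q r‖ * |Jf Q Q1 r - r / 4| := by positivity
  apply le_of_sq_le_sq _ h3
  rw [h1, mul_pow, ← sq_abs (q1f Q Q1 r), ← sq_abs (Jf Q Q1 r - r / 4)]
  nlinarith [mul_nonneg (abs_nonneg (q1f Q Q1 r))
    (mul_nonneg hq.le (abs_nonneg (Jf Q Q1 r - r / 4)))]

theorem div_re_im {Q Q1 : ℝ → ℂ} {r : ℝ} (h0 : Q r ≠ 0) :
    (Q1 r / Q r).re = q1f Q Q1 r / ‖Q r‖ ∧ (Q1 r / Q r).im = Jf Q Q1 r - r / 4 := by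
  have hq : 0 < ‖Q r‖ := norm_pos_iff.2 h0
  have hn : Complex.normSq (Q r) = ‖Q r‖ ^ 2 := by rw [Complex.sq_norm]
  constructor
  · rw [Complex.div_re, hn, q1f, Af]; field_simp
  · rw [Complex.div_im, hn, Jf, Gf]; field_simp; ring

/-- [P.CORE]: the core estimates of the truncated profile, uniform in all parameters. -/
theorem coreStatement (d : ℕ) (hd : 4 ≤ d) : CoreStatement d := by
  intro wm wp hwm hwmp hwp
  obtain ⟨k, rfl⟩ : ∃ k, d = k + 1 := ⟨d - 1, by omega⟩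
  have hk : 3 ≤ k := by omega
  set Λ : ℝ := 1 + |Real.log (wm / 2)| with hΛdef
  have hΛ : 1 ≤ Λ := by have := abs_nonneg (Real.log (wm / 2)); linarith
  set M : ℝ := MM 4 Λ with hM
  have hM0 : 0 < M := by rw [hM, MM]; positivity
  have hC30 : 0 < C3 k Λ := by unfold C3; positivity
  set C : ℝ := 32 * (2 * Λ + 1) + (4 * Λ + 2 * M) + 32 * (2 * Λ + 1) / wm +
    Real.sqrt (2 * (k + 1) / wm) + 16 * C3 k Λ / wm with hC
  have hCpos : 0 < C := by positivity
  set N : ℕ := ⌈32 * (2 * Λ + 1) + 144 / wm + 32 * (2 * Λ + 1) / wm⌉₊ + 1 with hN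
  refine ⟨C, hCpos, N, ?_⟩
  intro n hnN w hw q0 _ b τ hτ4 hτb Q Q1 hreg hhit
  have hw0 : 0 < w := hwm.trans_le hw.1
  have hw1 : w ≤ 1 := hw.2.trans hwp
  have hnN' : 32 * (2 * Λ + 1) + 144 / wm + 32 * (2 * Λ + 1) / wm < n := by
    have h1 := Nat.le_ceil (32 * (2 * Λ + 1) + 144 / wm + 32 * (2 * Λ + 1) / wm)
    have h2 : (N : ℝ) ≤ n := by exact_mod_cast hnN
    have h3 : (N : ℝ) = (⌈32 * (2 * Λ + 1) + 144 / wm + 32 * (2 * Λ + 1) / wm⌉₊ : ℝ) + 1 := by
      rw [hN]; push_cast; ring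
    linarith
  have hn0 : (0 : ℝ) < n := lt_trans (by positivity) hnN'
  have a1 : 0 < 144 / wm := by positivity
  have a2 : 0 < 32 * (2 * Λ + 1) / wm := by positivity
  have c : Cst n w 4 Λ := by
    refine ⟨hw0, by norm_num, by linarith, ?_, ?_, hΛ, by linarith⟩
    · have h1 : -Λ ≤ Real.log (wm / 2) := by
        have := neg_abs_le (Real.log (wm / 2)); linarith
      calc Real.exp (-Λ) ≤ Real.exp (Real.log (wm / 2)) := Real.exp_le_exp.2 h1
        _ = wm / 2 := Real.exp_log (by positivity)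
        _ ≤ w / 2 := by linarith [hw.1]
    · have h1 := Real.add_one_le_exp Λ
      norm_num
      linarith
  have hT : 0 < τ := hhit.pos
  have hQne : ∀ r ∈ Icc 0 τ, Q r ≠ 0 := by
    intro r hr h0
    have h1 := hhit.above r hr
    rw [h0, norm_zero, zero_pow (n_ne c)] at h1
    linarith
  have hsubI : Icc 0 τ ⊆ Icc 0 b := Icc_subset_Icc le_rfl hτb.le
  have hsubO : ∀ r ∈ Ioc 0 τ, r ∈ Ioo 0 b := fun r hr => ⟨hr.1, hr.2.trans_lt hτb⟩
  have h : CoreSys k n w τ (fun r => ‖Q r‖) (q1f Q Q1) (Jf Q Q1) := by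
    refine toCoreSys hT (by omega) (hreg.cQ.mono hsubI) (hreg.cQ1.mono hsubI)
      (fun r hr => hreg.ode.h1 r (hsubO r hr)) ?_ hreg.Q10 hQne hhit.above hhit.hit
    intro r hr
    have h2 := hreg.ode.h2 r (hsubO r hr)
    refine h2.congr_deriv ?_
    push_cast
    ring
  have hs : 0 < Real.sqrt n := Real.sqrt_pos.2 hn0
  have hn1' : (1 : ℝ) ≤ n := by linarith
  have hsn : Real.sqrt n ≤ n := by
    rw [Real.sqrt_le_left hn0.le]
    nlinarith
  have hwn : wm * n ≤ w * n := mul_le_mul_of_nonneg_right hw.1 hn0.le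
  have b1 : 144 < wm * n := by
    have : 144 / wm < n := by linarith
    rw [div_lt_iff₀ hwm] at this
    linarith
  have b2 : 32 * (2 * Λ + 1) < wm * n := by
    have : 32 * (2 * Λ + 1) / wm < n := by linarith
    rw [div_lt_iff₀ hwm] at this
    linarith
  have hn1 : 9 * (4 : ℝ) ^ 2 ≤ w * n := by norm_num; linarith
  have hn2 : 2 * Λ + 1 ≤ n := by linarith
  have hn3 : 2 * ((2 * Λ + 1) * (4 : ℝ) ^ 2) < w * n := by norm_num; linarith
  have hn4 : w + (2 * Λ + 1) * (4 : ℝ) ^ 2 / n < 4 := by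
    have : (2 * Λ + 1) * (4 : ℝ) ^ 2 / n < 1 := by
      rw [div_lt_one hn0]; norm_num; linarith
    linarith
  have hsum : 0 < Real.sqrt (2 * (k + 1) / wm) := Real.sqrt_pos.2 (by positivity)
  have hCs : 0 < 16 * C3 k Λ / wm := by positivity
  refine ⟨?_, ?_, ?_, ?_, ?_, ?_⟩
  · intro r hr
    refine (h.pow_le2 c hτ4 hk hn4 r hr).trans ?_
    have : (2 * Λ + 1) * (4 : ℝ) ^ 2 / n ≤ C / n := by
      apply div_le_div_of_nonneg_right _ hn0.le
      rw [hC]; norm_num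
      linarith
    linarith
  · intro r hr
    rcases eq_or_lt_of_le hr.1 with h0 | h0
    · rw [← h0, hreg.Q10]; simp; positivity
    have h1 := norm_Q1_le (Q1 := Q1) (hQne r hr)
    have h2 := h.abs_q1_sqrt c hτ4 hk r hr
    have h3 := h.abs_J_sub c hτ4 hk r ⟨h0, hr.2⟩
    have h4 := h.q_le3 c hτ4 r hr
    have h5 : ‖Q r‖ * |Jf Q Q1 r - r / 4| ≤ 3 / 2 * ((2 * Λ + 1) * 4 / Real.sqrt n) := by
      apply mul_le_mul h4 _ (abs_nonneg _) (by norm_num)
      refine h3.trans ?_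
      have h6 : (2 * Λ + 1) * r ≤ (2 * Λ + 1) * 4 :=
        mul_le_mul_of_nonneg_left (hr.2.trans hτ4) (by positivity)
      calc (2 * Λ + 1) * r / n ≤ (2 * Λ + 1) * 4 / n := div_le_div_of_nonneg_right h6 hn0.le
        _ ≤ (2 * Λ + 1) * 4 / Real.sqrt n := by
            apply div_le_div_of_nonneg_left (by positivity) hs hsn
    calc ‖Q1 r‖ ≤ (4 * Λ + 2 * M) / Real.sqrt n + 3 / 2 * ((2 * Λ + 1) * 4 / Real.sqrt n) := by
          linarith
      _ = (4 * Λ + 2 * M + 6 * (2 * Λ + 1)) / Real.sqrt n := by ring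
      _ ≤ C / Real.sqrt n := by
          apply div_le_div_of_nonneg_right _ hs.le
          rw [hC]
          linarith
  · have h1 := h.q1_T_neg c hτ4 hk hn3
    have h2 : ((starRingEnd ℂ (Q τ)) * Q1 τ).re = ‖Q τ‖ * q1f Q Q1 τ := by
      have hq : ‖Q τ‖ ≠ 0 := norm_ne_zero_iff.2 (hQne τ ⟨hT.le, le_rfl⟩)
      rw [q1f, Af, mul_div_cancel₀ _ hq]
      simp
    rw [h2]
    exact mul_neg_of_pos_of_neg (norm_pos_iff.2 (hQne τ ⟨hT.le, le_rfl⟩)) h1
  · intro r hr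
    refine le_trans ?_ (h.barrier c hτ4 hk r hr)
    apply mul_le_mul_of_nonneg_left _ hw0.le
    have h1 : 2 * (2 * Λ + 1) * (4 : ℝ) ^ 2 / w / n ≤ C / n := by
      apply div_le_div_of_nonneg_right _ hn0.le
      have h2 : 2 * (2 * Λ + 1) * (4 : ℝ) ^ 2 / w ≤ 32 * (2 * Λ + 1) / wm := by
        rw [show 2 * (2 * Λ + 1) * (4 : ℝ) ^ 2 = 32 * (2 * Λ + 1) by ring]
        exact div_le_div_of_nonneg_left (by positivity) hwm hw.1
      refine h2.trans ?_
      rw [hC]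
      have : 0 < 32 * (2 * Λ + 1) + (4 * Λ + 2 * M) := by positivity
      linarith
    have h3 : Real.exp (-(kap k n w * (τ - r))) ≤ Real.exp (-(Real.sqrt n / C) * (τ - r)) := by
      apply Real.exp_le_exp.2
      have h4 : Real.sqrt n / C ≤ kap k n w := by
        rw [div_le_iff₀ hCpos]
        have h5 : Real.sqrt n * Real.sqrt (w / (2 * (k + 1))) = kap k n w := by
          rw [kap, ← Real.sqrt_mul hn0.le]
          congr 1; ring
        have h6 : 1 ≤ Real.sqrt (w / (2 * (k + 1))) * C := by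
          have h7 : Real.sqrt (2 * (k + 1) / wm) ≤ C := by
            rw [hC]
            have : 0 < 32 * (2 * Λ + 1) + (4 * Λ + 2 * M) := by positivity
            linarith
          calc (1 : ℝ) = Real.sqrt 1 := Real.sqrt_one.symm
            _ ≤ Real.sqrt (w / (2 * (k + 1)) * (2 * (k + 1) / wm)) := by
                apply Real.sqrt_le_sqrt
                have : w / (2 * (k + 1)) * (2 * (k + 1) / wm) = w / wm := by
                  field_simp
                rw [this, le_div_iff₀ hwm]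
                linarith [hw.1]
            _ = Real.sqrt (w / (2 * (k + 1))) * Real.sqrt (2 * (k + 1) / wm) :=
                Real.sqrt_mul (by positivity) _
            _ ≤ _ := mul_le_mul_of_nonneg_left h7 (Real.sqrt_nonneg _)
        calc Real.sqrt n = Real.sqrt n * 1 := (mul_one _).symm
          _ ≤ Real.sqrt n * (Real.sqrt (w / (2 * (k + 1))) * C) :=
              mul_le_mul_of_nonneg_left h6 hs.le
          _ = kap k n w * C := by rw [← h5]; ring
      have h8 : 0 ≤ τ - r := by linarith [hr.2]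
      have := mul_le_mul_of_nonneg_right h4 h8
      linarith
    linarith
  · intro r hr
    rcases eq_or_lt_of_le hr.1 with h0 | h0
    · rw [← h0, hreg.Q10]; simp
    rw [(div_re_im (hQne r hr)).2]
    refine (h.abs_J_sub c hτ4 hk r ⟨h0, hr.2⟩).trans ?_
    apply div_le_div_of_nonneg_right _ hn0.le
    apply mul_le_mul_of_nonneg_right _ h0.le
    rw [hC]
    linarith
  · intro r hr
    rw [(div_re_im (hQne r hr)).1]
    have h1 := h.L1_le c hτ4 hk hn1 hn2 r hr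
    have h2 : q1f Q Q1 r / ‖Q r‖ = (n * (q1f Q Q1 r / ‖Q r‖)) / n := by field_simp
    rw [h2]
    calc (n * (q1f Q Q1 r / ‖Q r‖)) / n ≤ (4 * C3 k Λ * 4 / (w * n)) / n :=
          div_le_div_of_nonneg_right h1 hn0.le
      _ = 16 * C3 k Λ / w / (n : ℝ) ^ 2 := by field_simp; ring
      _ ≤ C / (n : ℝ) ^ 2 := by
          apply div_le_div_of_nonneg_right _ (by positivity)
          have h3 : 16 * C3 k Λ / w ≤ 16 * C3 k Λ / wm :=
            div_le_div_of_nonneg_left (by positivity) hwm hw.1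
          refine h3.trans ?_
          rw [hC]
          have : 0 < 32 * (2 * Λ + 1) + (4 * Λ + 2 * M) := by positivity
          linarith

end Vale.Agent.P139.H844
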