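import Vale.Agent.P139.H844.MP

/-!
# P139 / H844 : core estimates of the profile (block [P], P3 / P8), part 1

`CoreSys k n w T q q1 J` is the real form of the radial profile equation on `(0, T]`, `d = k + 1`,
`q = |Q|`, `J = Im (Q'/Q) + r/4`, potential `min (q^n) 4`, with `q^n ≥ w/2` on `[0, T]` and
`q(T)^n = w/2`.
-/

open Set Filter Topology

namespace Vale.Agent.P139.H844

/-- Real form of the radial profile equation on the core `[0, T]`. -/
structure CoreSys (k n : ℕ) (w T : ℝ) (q q1 J : ℝ → ℝ) : Prop where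
  hT : 0 < T
  cont : ContinuousOn q (Icc 0 T)
  pos : ∀ r ∈ Icc 0 T, 0 < q r
  der : ∀ r ∈ Ioc 0 T, HasDerivAt q (q1 r) r
  der2 : ∀ r ∈ Ioc 0 T, HasDerivAt (fun s => s ^ k * q1 s)
    (r ^ k * ((min (q r ^ n) 4 - (w + r ^ 2 / 16 - J r ^ 2)) * q r)) r
  lim0 : Tendsto (fun s => s ^ k * q1 s) (𝓝[>] 0) (𝓝 0)
  q10 : q1 0 = 0
  flux : ∀ r ∈ Ioc 0 T, J r * (r ^ k * q r ^ 2) =
    (((k : ℝ) + 1) / 4 - 1 / n) * ∫ s in (0 : ℝ)..r, s ^ k * q s ^ 2
  low : ∀ r ∈ Icc 0 T, w / 2 ≤ q r ^ n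
  hit : q T ^ n = w / 2

/-- Admissible constants: `b` bounds the radius, `Λ` the logarithms. -/
structure Cst (n : ℕ) (w b Λ : ℝ) : Prop where
  hw : 0 < w
  hb : 0 < b
  h4 : w + b ^ 2 / 16 < 4
  hΛ1 : Real.exp (-Λ) ≤ w / 2
  hΛ2 : w + b ^ 2 / 16 ≤ Real.exp Λ
  hΛ : 1 ≤ Λ
  hn : 4 * Λ ≤ n

namespace CoreSys

variable {k n : ℕ} {w T b Λ : ℝ} {q q1 J : ℝ → ℝ}

/-- Upper bound of `q` from a level `m` such that the potential exceeds `B` above it. -/
theorem pow_le_of (h : CoreSys k n w T q q1 J) {M : ℝ} (hn : n ≠ 0) (hM : w / 2 ≤ M) (hM4 : M < 4)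
    (hw : 0 < w) (hB : ∀ r ∈ Ioo 0 T, w + r ^ 2 / 16 - J r ^ 2 ≤ M) :
    ∀ r ∈ Icc 0 T, q r ^ n ≤ M := by
  have hM0 : 0 < M := by linarith
  set m : ℝ := M ^ (1 / (n : ℝ)) with hm
  have hm0 : 0 < m := Real.rpow_pos_of_pos hM0 _
  have hn0 : (n : ℝ) ≠ 0 := by exact_mod_cast hn
  have hmn : m ^ n = M := by
    rw [hm, ← Real.rpow_natCast, ← Real.rpow_mul hM0.le, one_div, inv_mul_cancel₀ hn0,
      Real.rpow_one]
  have key : ∀ r ∈ Icc 0 T, q r ≤ max m (q T) := by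
    apply radial_max (k := k) (z1 := q1)
      (y' := fun r => r ^ k * ((min (q r ^ n) 4 - (w + r ^ 2 / 16 - J r ^ 2)) * q r)) h.hT h.cont
      (fun r hr => h.der r ⟨hr.1, hr.2.le⟩) (fun r hr => h.der2 r ⟨hr.1, hr.2.le⟩) h.lim0
    intro r hr hmr
    have h1 : M < q r ^ n := by
      rw [← hmn]
      exact pow_lt_pow_left₀ hmr hm0.le hn
    have h2 : M < min (q r ^ n) 4 := lt_min h1 hM4
    have h3 := hB r hr
    have h4 : 0 < q r := h.pos r ⟨hr.1.le, hr.2.le⟩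
    have h5 : 0 < r ^ k := pow_pos hr.1 k
    have h6 : 0 < min (q r ^ n) 4 - (w + r ^ 2 / 16 - J r ^ 2) := by linarith
    positivity
  have hqT : q T ≤ m := by
    by_contra hcon
    push Not at hcon
    have : m ^ n < q T ^ n := pow_lt_pow_left₀ hcon hm0.le hn
    rw [hmn, h.hit] at this
    linarith
  intro r hr
  have h1 := key r hr
  rw [max_eq_left hqT] at h1
  calc q r ^ n ≤ m ^ n := pow_le_pow_left₀ (h.pos r hr).le h1 n
    _ = M := hmn

theorem pow_le1 (h : CoreSys k n w T q q1 J) (c : Cst n w b Λ) (hTb : T ≤ b) :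
    ∀ r ∈ Icc 0 T, q r ^ n ≤ w + b ^ 2 / 16 := by
  have hn : n ≠ 0 := by
    have := c.hn; have := c.hΛ
    rintro rfl
    norm_num at *
    linarith
  apply h.pow_le_of hn _ c.h4 c.hw
  · intro r hr
    have h1 : r ^ 2 ≤ b ^ 2 := pow_le_pow_left₀ hr.1.le (hr.2.le.trans hTb) 2
    nlinarith [sq_nonneg (J r)]
  · have := c.hw; have := c.hb
    nlinarith [sq_nonneg b]

theorem n_pos (c : Cst n w b Λ) : 0 < (n : ℝ) := by
  have := c.hn; have := c.hΛ; linarith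

theorem n_ne (c : Cst n w b Λ) : n ≠ 0 := by
  have := n_pos c
  rintro rfl
  simp at this

theorem pow_le_exp (h : CoreSys k n w T q q1 J) (c : Cst n w b Λ) (hTb : T ≤ b) :
    ∀ r ∈ Icc 0 T, q r ^ n ≤ Real.exp Λ := fun r hr => (h.pow_le1 c hTb r hr).trans c.hΛ2

theorem exp_le_pow (h : CoreSys k n w T q q1 J) (c : Cst n w b Λ) :
    ∀ r ∈ Icc 0 T, Real.exp (-Λ) ≤ q r ^ n := fun r hr => c.hΛ1.trans (h.low r hr)

theorem q_le (h : CoreSys k n w T q q1 J) (c : Cst n w b Λ) (hTb : T ≤ b) :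
    ∀ r ∈ Icc 0 T, q r ≤ Real.exp (Λ / n) := by
  intro r hr
  by_contra hcon
  push Not at hcon
  have h1 := pow_lt_pow_left₀ hcon (Real.exp_pos _).le (n_ne c)
  rw [← Real.exp_nat_mul, mul_div_cancel₀ _ (n_pos c).ne'] at h1
  exact absurd (h.pow_le_exp c hTb r hr) (not_le.2 h1)

theorem le_q (h : CoreSys k n w T q q1 J) (c : Cst n w b Λ) :
    ∀ r ∈ Icc 0 T, Real.exp (-(Λ / n)) ≤ q r := by
  intro r hr
  by_contra hcon
  push Not at hcon
  have h1 := pow_lt_pow_left₀ hcon (h.pos r hr).le (n_ne c)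
  rw [← Real.exp_nat_mul, mul_neg, mul_div_cancel₀ _ (n_pos c).ne'] at h1
  exact absurd (h.exp_le_pow c r hr) (not_le.2 h1)

theorem abs_log_q (h : CoreSys k n w T q q1 J) (c : Cst n w b Λ) (hTb : T ≤ b) :
    ∀ r ∈ Icc 0 T, |Real.log (q r)| ≤ Λ / n := by
  intro r hr
  have h0 := h.pos r hr
  rw [abs_le]
  constructor
  · rw [Real.le_log_iff_exp_le h0]
    exact h.le_q c r hr
  · rw [Real.log_le_iff_le_exp h0]
    exact h.q_le c hTb r hr

theorem exp4 (c : Cst n w b Λ) : Real.exp (4 * Λ / n) ≤ 1 + 8 * Λ / n := by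
  have hn := n_pos c
  have hΛ := c.hΛ
  have h1 : 0 ≤ 4 * Λ / n := by positivity
  have h2 : 4 * Λ / n ≤ 1 := by rw [div_le_one hn]; exact c.hn
  have h3 := Real.abs_exp_sub_one_le (x := 4 * Λ / n) (by rw [abs_of_nonneg h1]; exact h2)
  rw [abs_of_nonneg h1] at h3
  have h4 := (abs_le.1 h3).2
  have h5 : 2 * (4 * Λ / n) = 8 * Λ / n := by ring
  linarith

theorem q_abs_sub_one (h : CoreSys k n w T q q1 J) (c : Cst n w b Λ) (hTb : T ≤ b) :
    ∀ r ∈ Icc 0 T, |q r - 1| ≤ 2 * Λ / n := by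
  intro r hr
  have hn := n_pos c
  have hΛ := c.hΛ
  have h1 : 0 ≤ Λ / n := by positivity
  have h2 : Λ / n ≤ 1 := by rw [div_le_one hn]; linarith [c.hn]
  have h3 := Real.abs_exp_sub_one_le (x := Λ / n) (by rw [abs_of_nonneg h1]; exact h2)
  have h4 := Real.abs_exp_sub_one_le (x := -(Λ / n)) (by rw [abs_neg, abs_of_nonneg h1]; exact h2)
  rw [abs_neg] at h4
  rw [abs_of_nonneg h1] at h3 h4
  have h5 := h.q_le c hTb r hr
  have h6 := h.le_q c r hr
  have h7 : 2 * (Λ / n) = 2 * Λ / n := by ring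
  rw [abs_le] at *
  constructor <;> linarith [h3.1, h3.2, h4.1, h4.2]

theorem integral_pow (r : ℝ) (k : ℕ) : ∫ s in (0 : ℝ)..r, s ^ k = r ^ (k + 1) / (k + 1) := by
  rw [_root_.integral_pow]; simp

/-- Bounds of the flux integral. -/
theorem flux_int (h : CoreSys k n w T q q1 J) (c : Cst n w b Λ) (hTb : T ≤ b) :
    ∀ r ∈ Ioc 0 T,
      Real.exp (-(2 * Λ / n)) * (r ^ (k + 1) / (k + 1)) ≤ ∫ s in (0 : ℝ)..r, s ^ k * q s ^ 2 ∧
      ∫ s in (0 : ℝ)..r, s ^ k * q s ^ 2 ≤ Real.exp (2 * Λ / n) * (r ^ (k + 1) / (k + 1)) := by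
  intro r hr
  have hsub : Icc 0 r ⊆ Icc 0 T := Icc_subset_Icc le_rfl hr.2
  have hint : IntervalIntegrable (fun s => s ^ k * q s ^ 2) MeasureTheory.volume 0 r := by
    apply ContinuousOn.intervalIntegrable
    rw [uIcc_of_le hr.1.le]
    exact ((continuous_pow k).continuousOn).mul ((h.cont.mono hsub).pow 2)
  have hint2 : ∀ C : ℝ, IntervalIntegrable (fun s : ℝ => C * s ^ k) MeasureTheory.volume 0 r :=
    fun C => (continuous_const.mul (continuous_pow k)).intervalIntegrable _ _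
  have e1 : ∀ x : ℝ, Real.exp (x / n) ^ 2 = Real.exp (2 * x / n) := by
    intro x
    rw [← Real.exp_nat_mul]
    congr 1; push_cast; ring
  constructor
  · rw [← integral_pow, ← intervalIntegral.integral_const_mul]
    apply intervalIntegral.integral_mono_on hr.1.le (hint2 _) hint
    intro s hs
    have h1 := h.le_q c s (hsub hs)
    have h2 : Real.exp (-(2 * Λ / n)) ≤ q s ^ 2 := by
      calc Real.exp (-(2 * Λ / n)) = Real.exp (-(Λ / n)) ^ 2 := by
            rw [← Real.exp_nat_mul]; congr 1; push_cast; ring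
        _ ≤ q s ^ 2 := pow_le_pow_left₀ (Real.exp_pos _).le h1 2
    have h3 : 0 ≤ s ^ k := pow_nonneg hs.1 k
    nlinarith
  · rw [← integral_pow, ← intervalIntegral.integral_const_mul]
    apply intervalIntegral.integral_mono_on hr.1.le hint (hint2 _)
    intro s hs
    have h1 := h.q_le c hTb s (hsub hs)
    have h2 : q s ^ 2 ≤ Real.exp (2 * Λ / n) := by
      rw [← e1]
      exact pow_le_pow_left₀ (h.pos s (hsub hs)).le h1 2
    have h3 : 0 ≤ s ^ k := pow_nonneg hs.1 k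
    nlinarith

/-- `J = (r/4) (1 + O(1/n))`. -/
theorem J_bounds (h : CoreSys k n w T q q1 J) (c : Cst n w b Λ) (hTb : T ≤ b) (hk : 3 ≤ k) :
    ∀ r ∈ Ioc 0 T, (1 / 4 - 1 / (n * (k + 1))) * r * Real.exp (-(4 * Λ / n)) ≤ J r ∧
      J r ≤ r / 4 * Real.exp (4 * Λ / n) := by
  intro r hr
  have hn := n_pos c
  have hΛ := c.hΛ
  have hn4 : (4 : ℝ) ≤ n := by linarith [c.hn]
  have hk' : (3 : ℝ) ≤ k := by exact_mod_cast hk
  obtain ⟨h1, h2⟩ := h.flux_int c hTb r hr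
  have h3 := h.flux r hr
  have hr' : r ∈ Icc 0 T := ⟨hr.1.le, hr.2⟩
  have hq := h.pos r hr'
  have hrk : 0 < r ^ k := pow_pos hr.1 k
  have hc0 : 0 < ((k : ℝ) + 1) / 4 - 1 / n := by
    have : 1 / (n : ℝ) ≤ 1 / 4 := one_div_le_one_div_of_le (by norm_num) hn4
    linarith
  have hq2 : 0 < r ^ k * q r ^ 2 := by positivity
  have hql : Real.exp (-(2 * Λ / n)) ≤ q r ^ 2 := by
    calc Real.exp (-(2 * Λ / n)) = Real.exp (-(Λ / n)) ^ 2 := by
          rw [← Real.exp_nat_mul]; congr 1; push_cast; ring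
      _ ≤ q r ^ 2 := pow_le_pow_left₀ (Real.exp_pos _).le (h.le_q c r hr') 2
  have hqu : q r ^ 2 ≤ Real.exp (2 * Λ / n) := by
    calc q r ^ 2 ≤ Real.exp (Λ / n) ^ 2 := pow_le_pow_left₀ hq.le (h.q_le c hTb r hr') 2
      _ = Real.exp (2 * Λ / n) := by rw [← Real.exp_nat_mul]; congr 1; push_cast; ring
  have e4 : Real.exp (-(4 * Λ / n)) * Real.exp (2 * Λ / n) = Real.exp (-(2 * Λ / n)) := by
    rw [← Real.exp_add]; congr 1; ring
  have e4' : Real.exp (4 * Λ / n) * Real.exp (-(2 * Λ / n)) = Real.exp (2 * Λ / n) := by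
    rw [← Real.exp_add]; congr 1; ring
  have hcoef : (((k : ℝ) + 1) / 4 - 1 / n) * (r ^ (k + 1) / (k + 1)) =
      (1 / 4 - 1 / (n * (k + 1))) * r * r ^ k := by
    field_simp
    ring
  have hcc : 0 < 1 / 4 - 1 / ((n : ℝ) * (k + 1)) := by
    have : 1 / ((n : ℝ) * (k + 1)) ≤ 1 / 16 :=
      one_div_le_one_div_of_le (by norm_num) (by nlinarith)
    linarith
  constructor
  · have h5 : (1 / 4 - 1 / (n * ((k : ℝ) + 1))) * r * Real.exp (-(4 * Λ / n)) * (r ^ k * q r ^ 2)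
        ≤ J r * (r ^ k * q r ^ 2) := by
      rw [h3]
      calc (1 / 4 - 1 / (n * ((k : ℝ) + 1))) * r * Real.exp (-(4 * Λ / n)) * (r ^ k * q r ^ 2)
          ≤ (1 / 4 - 1 / (n * ((k : ℝ) + 1))) * r * Real.exp (-(4 * Λ / n)) *
            (r ^ k * Real.exp (2 * Λ / n)) := by
              have : 0 ≤ (1 / 4 - 1 / (n * ((k : ℝ) + 1))) * r * Real.exp (-(4 * Λ / n)) := by
                have := hr.1; positivity
              apply mul_le_mul_of_nonneg_left _ this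
              exact mul_le_mul_of_nonneg_left hqu hrk.le
        _ = (((k : ℝ) + 1) / 4 - 1 / n) * (Real.exp (-(2 * Λ / n)) * (r ^ (k + 1) / (k + 1))) := by
              rw [← e4]
              have := hcoef
              linear_combination (-(Real.exp (-(4 * Λ / n)) * Real.exp (2 * Λ / n))) * this
        _ ≤ _ := mul_le_mul_of_nonneg_left h1 hc0.le
    exact le_of_mul_le_mul_right h5 hq2
  · have h5 : J r * (r ^ k * q r ^ 2) ≤ r / 4 * Real.exp (4 * Λ / n) * (r ^ k * q r ^ 2) := by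
      rw [h3]
      calc (((k : ℝ) + 1) / 4 - 1 / n) * ∫ s in (0 : ℝ)..r, s ^ k * q s ^ 2
          ≤ (((k : ℝ) + 1) / 4 - 1 / n) * (Real.exp (2 * Λ / n) * (r ^ (k + 1) / (k + 1))) :=
            mul_le_mul_of_nonneg_left h2 hc0.le
        _ = (1 / 4 - 1 / (n * ((k : ℝ) + 1))) * r * r ^ k * Real.exp (2 * Λ / n) := by
            linear_combination (Real.exp (2 * Λ / n)) * hcoef
        _ ≤ (1 / 4) * r * r ^ k * Real.exp (2 * Λ / n) := by
            have h6 : 0 < 1 / ((n : ℝ) * (k + 1)) := by positivity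
            have h7 : 0 ≤ r * r ^ k * Real.exp (2 * Λ / n) := by
              have := hr.1; positivity
            nlinarith
        _ = r / 4 * Real.exp (4 * Λ / n) * (r ^ k * Real.exp (-(2 * Λ / n))) := by
            rw [← e4']; ring
        _ ≤ _ := by
            have : 0 ≤ r / 4 * Real.exp (4 * Λ / n) := by have := hr.1; positivity
            apply mul_le_mul_of_nonneg_left _ this
            exact mul_le_mul_of_nonneg_left hql hrk.le
    exact le_of_mul_le_mul_right h5 hq2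

/-- `|J - r/4| ≤ (2Λ+1) r / n`. -/
theorem abs_J_sub (h : CoreSys k n w T q q1 J) (c : Cst n w b Λ) (hTb : T ≤ b) (hk : 3 ≤ k) :
    ∀ r ∈ Ioc 0 T, |J r - r / 4| ≤ (2 * Λ + 1) * r / n := by
  intro r hr
  have hn := n_pos c
  have hΛ := c.hΛ
  obtain ⟨h1, h2⟩ := h.J_bounds c hTb hk r hr
  have h3 := exp4 c
  have h4 : 1 - 4 * Λ / n ≤ Real.exp (-(4 * Λ / n)) := by
    have := Real.add_one_le_exp (-(4 * Λ / n)); linarith
  have hr0 := hr.1
  have hk0 : (3 : ℝ) ≤ k := by exact_mod_cast hk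
  have h5 : 0 < 1 / ((n : ℝ) * (k + 1)) := by positivity
  have h6 : 1 / ((n : ℝ) * (k + 1)) ≤ 1 / (4 * n) :=
    one_div_le_one_div_of_le (by positivity) (by nlinarith)
  have h7 : Real.exp (-(4 * Λ / n)) ≤ 1 := Real.exp_le_one_iff.2 (by
    have : 0 ≤ 4 * Λ / n := by positivity
    linarith)
  have h8 : 0 < Real.exp (-(4 * Λ / n)) := Real.exp_pos _
  rw [abs_le]
  constructor
  · have h9 : 1 / 4 * r * (1 - 4 * Λ / n) - 1 / (4 * n) * r ≤
        (1 / 4 - 1 / (n * (k + 1))) * r * Real.exp (-(4 * Λ / n)) := by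
      have a1 : 1 / 4 * r * (1 - 4 * Λ / n) ≤ 1 / 4 * r * Real.exp (-(4 * Λ / n)) :=
        mul_le_mul_of_nonneg_left h4 (by positivity)
      have a2 : 1 / ((n : ℝ) * (k + 1)) * r * Real.exp (-(4 * Λ / n)) ≤ 1 / (4 * n) * r := by
        calc 1 / ((n : ℝ) * (k + 1)) * r * Real.exp (-(4 * Λ / n))
            ≤ 1 / ((n : ℝ) * (k + 1)) * r * 1 := mul_le_mul_of_nonneg_left h7 (by positivity)
          _ ≤ 1 / (4 * n) * r := by rw [mul_one]; exact mul_le_mul_of_nonneg_right h6 hr0.le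
      nlinarith
    have h10 : 1 / 4 * r * (1 - 4 * Λ / n) - 1 / (4 * n) * r = r / 4 - (Λ + 1 / 4) * r / n := by
      field_simp; ring
    have h11 : (Λ + 1 / 4) * r / n ≤ (2 * Λ + 1) * r / n := by
      apply div_le_div_of_nonneg_right _ hn.le
      nlinarith
    linarith
  · have h9 : r / 4 * Real.exp (4 * Λ / n) ≤ r / 4 * (1 + 8 * Λ / n) :=
      mul_le_mul_of_nonneg_left h3 (by positivity)
    have h10 : r / 4 * (1 + 8 * Λ / n) = r / 4 + 2 * Λ * r / n := by field_simp; ring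
    have h11 : 2 * Λ * r / n ≤ (2 * Λ + 1) * r / n := by
      apply div_le_div_of_nonneg_right _ hn.le
      nlinarith
    linarith

theorem J_nonneg (h : CoreSys k n w T q q1 J) (c : Cst n w b Λ) (hTb : T ≤ b) (hk : 3 ≤ k) :
    ∀ r ∈ Ioc 0 T, 0 ≤ J r ∧ J r ≤ 3 * r / 4 := by
  intro r hr
  have hn := n_pos c
  have hΛ := c.hΛ
  have hn4 : (4 : ℝ) ≤ n := by linarith [c.hn]
  obtain ⟨h1, h2⟩ := h.J_bounds c hTb hk r hr
  have hk0 : (3 : ℝ) ≤ k := by exact_mod_cast hk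
  have hr0 := hr.1
  constructor
  · refine le_trans ?_ h1
    have : 1 / ((n : ℝ) * (k + 1)) ≤ 1 / 16 :=
      one_div_le_one_div_of_le (by norm_num) (by nlinarith)
    have h5 : 0 ≤ 1 / 4 - 1 / ((n : ℝ) * (k + 1)) := by linarith
    have := Real.exp_pos (-(4 * Λ / n))
    positivity
  · refine h2.trans ?_
    have h3 := exp4 c
    have h5 : 8 * Λ / n ≤ 2 := by
      rw [div_le_iff₀ hn]; linarith [c.hn]
    nlinarith

/-- `|B - w| ≤ (2Λ+1) r² / n`. -/
theorem abs_B_sub (h : CoreSys k n w T q q1 J) (c : Cst n w b Λ) (hTb : T ≤ b) (hk : 3 ≤ k) :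
    ∀ r ∈ Ioc 0 T, |w + r ^ 2 / 16 - J r ^ 2 - w| ≤ (2 * Λ + 1) * r ^ 2 / n := by
  intro r hr
  have h1 := h.abs_J_sub c hTb hk r hr
  obtain ⟨h2, h3⟩ := h.J_nonneg c hTb hk r hr
  have hr0 := hr.1
  have e : w + r ^ 2 / 16 - J r ^ 2 - w = -((J r - r / 4) * (J r + r / 4)) := by ring
  rw [e, abs_neg, abs_mul, abs_of_nonneg (by positivity : 0 ≤ J r + r / 4)]
  calc |J r - r / 4| * (J r + r / 4) ≤ ((2 * Λ + 1) * r / n) * r := by
        apply mul_le_mul h1 (by linarith) (by positivity)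
        exact (abs_nonneg _).trans h1
    _ = (2 * Λ + 1) * r ^ 2 / n := by ring

/-- `P ≤ w + (2Λ+1) b² / n`. -/
theorem pow_le2 (h : CoreSys k n w T q q1 J) (c : Cst n w b Λ) (hTb : T ≤ b) (hk : 3 ≤ k)
    (hn4 : w + (2 * Λ + 1) * b ^ 2 / n < 4) :
    ∀ r ∈ Icc 0 T, q r ^ n ≤ w + (2 * Λ + 1) * b ^ 2 / n := by
  have hn := n_pos c
  have hΛ := c.hΛ
  have hw := c.hw
  have h0 : 0 ≤ (2 * Λ + 1) * b ^ 2 / n := by positivity
  apply h.pow_le_of (n_ne c) (by linarith) hn4 hw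
  intro r hr
  have h1 := (abs_le.1 (h.abs_B_sub c hTb hk r ⟨hr.1, hr.2.le⟩)).2
  have h2 : (2 * Λ + 1) * r ^ 2 / n ≤ (2 * Λ + 1) * b ^ 2 / n := by
    apply div_le_div_of_nonneg_right _ hn.le
    apply mul_le_mul_of_nonneg_left _ (by positivity)
    exact pow_le_pow_left₀ hr.1.le (hr.2.le.trans hTb) 2
  linarith

/-- The truncation is inactive. -/
theorem min_eq (h : CoreSys k n w T q q1 J) (c : Cst n w b Λ) (hTb : T ≤ b) :
    ∀ r ∈ Icc 0 T, min (q r ^ n) 4 = q r ^ n := by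
  intro r hr
  exact min_eq_left ((h.pow_le1 c hTb r hr).trans c.h4.le)

end CoreSys

end Vale.Agent.P139.H844
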