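import Vale.Agent.P139.H844.Core1

/-!
# P139 / H844 : core estimates of the profile (block [P], P3 / P8), part 2: gradient bounds
-/

open Set Filter Topology

namespace Vale.Agent.P139.H844

/-- If `y → 0` at `r0` and `y' ≥ 0` on `(r0, r1)` then `y ≥ 0` there. -/
theorem nonneg_of_deriv_nonneg {y y' : ℝ → ℝ} {r0 r1 : ℝ}
    (hy : ∀ r ∈ Ioo r0 r1, HasDerivAt y (y' r) r) (hy' : ∀ r ∈ Ioo r0 r1, 0 ≤ y' r)
    (hlim : Tendsto y (𝓝[>] r0) (𝓝 0)) : ∀ r ∈ Ioo r0 r1, 0 ≤ y r := by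
  intro r hr
  have hmono : MonotoneOn y (Ioo r0 r1) := by
    apply monotoneOn_of_deriv_nonneg (convex_Ioo r0 r1)
    · intro x hx
      exact (hy x hx).continuousAt.continuousWithinAt
    · intro x hx
      rw [interior_Ioo] at hx
      exact (hy x hx).differentiableAt.differentiableWithinAt
    · intro x hx
      rw [interior_Ioo] at hx
      rw [(hy x hx).deriv]
      exact hy' x hx
  apply le_of_tendsto hlim
  have : Ioo r0 r ∈ 𝓝[>] r0 := Ioo_mem_nhdsGT hr.1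
  filter_upwards [this] with s hs
  exact hmono ⟨hs.1, hs.2.trans hr.2⟩ hr hs.2.le

/-- `|y'| ≤ M r^k` on `(0, T)` and `y → 0` at `0` give `|y| ≤ M r^{k+1}/(k+1)`. -/
theorem abs_le_of_deriv {y y' : ℝ → ℝ} {T M : ℝ} {k : ℕ}
    (hy : ∀ r ∈ Ioo 0 T, HasDerivAt y (y' r) r) (hy' : ∀ r ∈ Ioo 0 T, |y' r| ≤ M * r ^ k)
    (hlim : Tendsto y (𝓝[>] 0) (𝓝 0)) : ∀ r ∈ Ioo 0 T, |y r| ≤ M * r ^ (k + 1) / (k + 1) := by
  have hk : (0 : ℝ) < (k : ℝ) + 1 := by positivity
  have hd : ∀ r : ℝ, HasDerivAt (fun s : ℝ => M * s ^ (k + 1) / (k + 1)) (M * r ^ k) r := by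
    intro r
    have h1 := (((hasDerivAt_pow (k + 1) r).const_mul M).div_const ((k : ℝ) + 1))
    refine h1.congr_deriv ?_
    rw [Nat.add_sub_cancel]
    push_cast
    field_simp
  have hl : Tendsto (fun s : ℝ => M * s ^ (k + 1) / (k + 1)) (𝓝[>] 0) (𝓝 0) := by
    have : Tendsto (fun s : ℝ => M * s ^ (k + 1) / (k + 1)) (𝓝 0)
        (𝓝 (M * 0 ^ (k + 1) / (k + 1))) := (hd 0).continuousAt
    simp only [ne_eq, Nat.add_eq_zero_iff, one_ne_zero, and_false, not_false_eq_true, zero_pow,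
      mul_zero, zero_div] at this
    exact this.mono_left nhdsWithin_le_nhds
  intro r hr
  rw [abs_le]
  constructor
  · have := nonneg_of_deriv_nonneg (y := fun s => y s + M * s ^ (k + 1) / (k + 1))
      (fun s hs => (hy s hs).add (hd s))
      (fun s hs => by have := (abs_le.1 (hy' s hs)).1; linarith)
      (by simpa using hlim.add hl) r hr
    linarith
  · have := nonneg_of_deriv_nonneg (y := fun s => M * s ^ (k + 1) / (k + 1) - y s)
      (fun s hs => (hd s).sub (hy s hs))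
      (fun s hs => by have := (abs_le.1 (hy' s hs)).2; linarith)
      (by simpa using hl.sub hlim) r hr
    linarith

namespace CoreSys

variable {k n : ℕ} {w T b Λ : ℝ} {q q1 J : ℝ → ℝ}

/-- Bound for the right-hand side. -/
noncomputable def MM (b Λ : ℝ) : ℝ := 3 * (4 + (2 * Λ + 1) * b ^ 2)

theorem MM_pos (c : Cst n w b Λ) : 0 < MM b Λ := by
  have := c.hΛ
  unfold MM; positivity

theorem n_ge (c : Cst n w b Λ) : (4 : ℝ) ≤ n := by
  have := c.hn; have := c.hΛ; linarith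

theorem q_le3 (h : CoreSys k n w T q q1 J) (c : Cst n w b Λ) (hTb : T ≤ b) :
    ∀ r ∈ Icc 0 T, q r ≤ 3 / 2 := by
  intro r hr
  have h1 := (abs_le.1 (h.q_abs_sub_one c hTb r hr)).2
  have hn := n_pos c
  have h2 : 2 * Λ / n ≤ 1 / 2 := by
    rw [div_le_iff₀ hn]; linarith [c.hn]
  linarith

theorem q_ge (h : CoreSys k n w T q q1 J) (c : Cst n w b Λ) (hTb : T ≤ b) :
    ∀ r ∈ Icc 0 T, 1 / 2 ≤ q r := by
  intro r hr
  have h1 := (abs_le.1 (h.q_abs_sub_one c hTb r hr)).1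
  have hn := n_pos c
  have h2 : 2 * Λ / n ≤ 1 / 2 := by
    rw [div_le_iff₀ hn]; linarith [c.hn]
  linarith

theorem abs_PB (h : CoreSys k n w T q q1 J) (c : Cst n w b Λ) (hTb : T ≤ b) (hk : 3 ≤ k) :
    ∀ r ∈ Ioc 0 T, |min (q r ^ n) 4 - (w + r ^ 2 / 16 - J r ^ 2)| ≤ 4 + (2 * Λ + 1) * b ^ 2 := by
  intro r hr
  have hr' : r ∈ Icc 0 T := ⟨hr.1.le, hr.2⟩
  rw [h.min_eq c hTb r hr']
  have h1 := h.abs_B_sub c hTb hk r hr
  have h2 := h.pow_le1 c hTb r hr'
  have h3 := h.low r hr'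
  have h4 := c.h4
  have hw := c.hw
  have hn := n_pos c
  have hn4 := n_ge c
  have hΛ := c.hΛ
  have h5 : (2 * Λ + 1) * r ^ 2 / n ≤ (2 * Λ + 1) * b ^ 2 := by
    rw [div_le_iff₀ hn]
    have h6 : r ^ 2 ≤ b ^ 2 := pow_le_pow_left₀ hr.1.le (hr.2.trans hTb) 2
    have h7 : (2 * Λ + 1) * r ^ 2 ≤ (2 * Λ + 1) * b ^ 2 :=
      mul_le_mul_of_nonneg_left h6 (by positivity)
    have h9 : (2 * Λ + 1) * b ^ 2 * 1 ≤ (2 * Λ + 1) * b ^ 2 * n :=
      mul_le_mul_of_nonneg_left (by linarith) (by positivity)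
    linarith
  have h8 : |q r ^ n - w| ≤ 4 := by
    rw [abs_le]
    constructor
    · nlinarith [sq_nonneg b]
    · nlinarith [sq_nonneg b]
  have e : q r ^ n - (w + r ^ 2 / 16 - J r ^ 2) =
      (q r ^ n - w) - (w + r ^ 2 / 16 - J r ^ 2 - w) := by ring
  rw [e]
  exact (abs_sub _ _).trans (by linarith)

theorem abs_rhs (h : CoreSys k n w T q q1 J) (c : Cst n w b Λ) (hTb : T ≤ b) (hk : 3 ≤ k) :
    ∀ r ∈ Ioc 0 T, |(min (q r ^ n) 4 - (w + r ^ 2 / 16 - J r ^ 2)) * q r| ≤ MM b Λ := by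
  intro r hr
  have hr' : r ∈ Icc 0 T := ⟨hr.1.le, hr.2⟩
  have h1 := h.abs_PB c hTb hk r hr
  have h2 := h.pos r hr'
  have h3 := h.q_le3 c hTb r hr'
  rw [abs_mul, abs_of_pos h2, MM]
  have hΛ := c.hΛ
  have h4 : 0 ≤ 4 + (2 * Λ + 1) * b ^ 2 := by positivity
  nlinarith [abs_nonneg (min (q r ^ n) 4 - (w + r ^ 2 / 16 - J r ^ 2))]

/-- `|q'| ≤ M r`. -/
theorem abs_q1_le (h : CoreSys k n w T q q1 J) (c : Cst n w b Λ) (hTb : T ≤ b) (hk : 3 ≤ k) :
    ∀ r ∈ Icc 0 T, |q1 r| ≤ MM b Λ * r / (k + 1) := by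
  have hM := MM_pos c
  have key : ∀ r ∈ Ioo 0 T, |q1 r| ≤ MM b Λ * r / (k + 1) := by
    intro r hr
    have h1 := abs_le_of_deriv (y := fun s => s ^ k * q1 s) (k := k) (M := MM b Λ) (T := T)
      (fun r hr => h.der2 r ⟨hr.1, hr.2.le⟩) (by
        intro r hr
        have h2 := h.abs_rhs c hTb hk r ⟨hr.1, hr.2.le⟩
        have h3 : 0 < r ^ k := pow_pos hr.1 k
        rw [abs_mul, abs_of_pos h3]
        nlinarith) h.lim0 r hr
    have h3 : 0 < r ^ k := pow_pos hr.1 k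
    rw [abs_mul, abs_of_pos h3] at h1
    have h4 : MM b Λ * r ^ (k + 1) / (k + 1) = r ^ k * (MM b Λ * r / (k + 1)) := by
      rw [pow_succ]; ring
    rw [h4] at h1
    exact le_of_mul_le_mul_left h1 h3
  intro r hr
  rcases eq_or_lt_of_le hr.1 with h0 | h0
  · rw [← h0, h.q10]; simp
  rcases eq_or_lt_of_le hr.2 with h1 | h1
  · -- endpoint by continuity
    have hc : ContinuousAt (fun s => s ^ k * q1 s) T := (h.der2 T ⟨h.hT, le_rfl⟩).continuousAt
    have hTk : T ^ k ≠ 0 := (pow_pos h.hT k).ne'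
    have hc1 : ContinuousAt q1 T := by
      have h2 : ContinuousAt (fun s => (s ^ k * q1 s) / s ^ k) T :=
        hc.div ((continuous_pow k).continuousAt) hTk
      apply h2.congr
      filter_upwards [eventually_gt_nhds h.hT] with s hs
      rw [mul_comm, mul_div_assoc, div_self (pow_pos hs k).ne', mul_one]
    rw [h1]
    have h2 : Tendsto (fun s => |q1 s|) (𝓝[<] T) (𝓝 |q1 T|) :=
      (hc1.abs.tendsto).mono_left nhdsWithin_le_nhds
    have h3 : Tendsto (fun s => MM b Λ * s / (k + 1)) (𝓝[<] T) (𝓝 (MM b Λ * T / (k + 1))) := by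
      have : Continuous (fun s : ℝ => MM b Λ * s / (k + 1)) := by fun_prop
      exact (this.tendsto T).mono_left nhdsWithin_le_nhds
    apply le_of_tendsto_of_tendsto h2 h3
    filter_upwards [Ioo_mem_nhdsLT h.hT] with s hs
    exact key s hs
  · exact key r ⟨h0, h1⟩

/-- The second derivative. -/
theorem hasDerivAt_q1 (h : CoreSys k n w T q q1 J) :
    ∀ r ∈ Ioc 0 T, HasDerivAt q1
      ((min (q r ^ n) 4 - (w + r ^ 2 / 16 - J r ^ 2)) * q r - k / r * q1 r) r := by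
  intro r hr
  have h1 := h.der2 r hr
  have hrk : r ^ k ≠ 0 := (pow_pos hr.1 k).ne'
  have h2 := h1.div (hasDerivAt_pow k r) hrk
  have h3 : (fun s => (s ^ k * q1 s) / s ^ k) =ᶠ[𝓝 r] q1 := by
    filter_upwards [eventually_gt_nhds hr.1] with s hs
    rw [mul_comm, mul_div_assoc, div_self (pow_pos hs k).ne', mul_one]
  have h4 := h2.congr_of_eventuallyEq h3.symm
  refine h4.congr_deriv ?_
  have hr0 : r ≠ 0 := hr.1.ne'
  rcases Nat.eq_zero_or_pos k with hk | hk
  · subst hk; simp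
  · have e1 : r ^ k = r ^ (k - 1) * r := by
      rw [← pow_succ, Nat.sub_add_cancel hk]
    rw [e1]
    have h5 : r ^ (k - 1) ≠ 0 := (pow_pos hr.1 _).ne'
    field_simp

theorem continuousOn_q1 (h : CoreSys k n w T q q1 J) (c : Cst n w b Λ) (hTb : T ≤ b)
    (hk : 3 ≤ k) : ContinuousOn q1 (Icc 0 T) := by
  intro r hr
  rcases eq_or_lt_of_le hr.1 with h0 | h0
  · rw [← h0]
    have h1 : Tendsto q1 (𝓝[Icc 0 T] 0) (𝓝 0) := by
      apply squeeze_zero_norm' (a := fun s => MM b Λ * s / (k + 1))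
      · filter_upwards [self_mem_nhdsWithin] with s hs
        rw [Real.norm_eq_abs]
        exact h.abs_q1_le c hTb hk s hs
      · have : Continuous (fun s : ℝ => MM b Λ * s / (k + 1)) := by fun_prop
        have h2 := (this.tendsto 0).mono_left (nhdsWithin_le_nhds (s := Icc 0 T))
        simpa using h2
    rw [ContinuousWithinAt, h.q10]
    exact h1
  · exact (h.hasDerivAt_q1 r ⟨h0, hr.2⟩).continuousAt.continuousWithinAt

/-- `|q''| ≤ 2 M`. -/
theorem abs_q2_le (h : CoreSys k n w T q q1 J) (c : Cst n w b Λ) (hTb : T ≤ b) (hk : 3 ≤ k) :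
    ∀ r ∈ Ioc 0 T,
      |(min (q r ^ n) 4 - (w + r ^ 2 / 16 - J r ^ 2)) * q r - k / r * q1 r| ≤ 2 * MM b Λ := by
  intro r hr
  have hM := MM_pos c
  have h1 := h.abs_rhs c hTb hk r hr
  have h2 := h.abs_q1_le c hTb hk r ⟨hr.1.le, hr.2⟩
  have h3 : |(k : ℝ) / r * q1 r| ≤ MM b Λ := by
    have hr0 := hr.1
    rw [abs_mul, abs_of_nonneg (by positivity : (0 : ℝ) ≤ k / r)]
    calc (k : ℝ) / r * |q1 r| ≤ k / r * (MM b Λ * r / (k + 1)) :=
          mul_le_mul_of_nonneg_left h2 (by positivity)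
      _ = MM b Λ * (k / (k + 1)) := by field_simp
      _ ≤ MM b Λ * 1 := by
          apply mul_le_mul_of_nonneg_left _ hM.le
          rw [div_le_one (by positivity)]
          linarith
      _ = MM b Λ := mul_one _
  exact (abs_sub _ _).trans (by linarith)

/-- `|q'| ≤ C / √n`. -/
theorem abs_q1_sqrt (h : CoreSys k n w T q q1 J) (c : Cst n w b Λ) (hTb : T ≤ b) (hk : 3 ≤ k) :
    ∀ r ∈ Icc 0 T, |q1 r| ≤ (4 * Λ + 2 * MM b Λ) / Real.sqrt n := by
  intro r hr
  have hM := MM_pos c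
  have hn := n_pos c
  have hΛ := c.hΛ
  have hs : 0 < Real.sqrt n := Real.sqrt_pos.2 hn
  set e : ℝ := 1 / Real.sqrt n with he
  have he0 : 0 < e := by positivity
  rcases le_or_gt r e with h1 | h1
  · calc |q1 r| ≤ MM b Λ * r / (k + 1) := h.abs_q1_le c hTb hk r hr
      _ ≤ MM b Λ * r := by
          apply div_le_self (by have := hr.1; positivity)
          have : (0 : ℝ) ≤ k := by positivity
          linarith
      _ ≤ MM b Λ * e := mul_le_mul_of_nonneg_left h1 hM.le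
      _ ≤ (4 * Λ + 2 * MM b Λ) * e := by
          apply mul_le_mul_of_nonneg_right _ he0.le
          linarith
      _ = _ := by rw [he]; ring
  · have hr0 : 0 < r := he0.trans h1
    have hre : r - e < r := by linarith
    have hsub : Icc (r - e) r ⊆ Icc 0 T := Icc_subset_Icc (by linarith) hr.2
    obtain ⟨ξ, hξ, hξ'⟩ := exists_hasDerivAt_eq_slope q q1 hre (h.cont.mono hsub)
      (fun s hs => h.der s ⟨by linarith [hs.1], by linarith [hs.2, hr.2]⟩)
    have h2 : |q1 ξ| ≤ 4 * Λ / n / e := by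
      rw [hξ', abs_div, show r - (r - e) = e by ring, abs_of_pos he0]
      apply div_le_div_of_nonneg_right _ he0.le
      have h3 := h.q_abs_sub_one c hTb r hr
      have h4 := h.q_abs_sub_one c hTb (r - e) (hsub ⟨le_rfl, hre.le⟩)
      have e1 : q r - q (r - e) = (q r - 1) - (q (r - e) - 1) := by ring
      rw [e1]
      refine (abs_sub _ _).trans ?_
      have : 4 * Λ / n = 2 * Λ / n + 2 * Λ / n := by ring
      linarith
    have h5 : 4 * Λ / n / e = 4 * Λ / Real.sqrt n := by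
      rw [he]
      have : (n : ℝ) = Real.sqrt n * Real.sqrt n := (Real.mul_self_sqrt hn.le).symm
      rw [this]
      field_simp
      rw [Real.sqrt_sq (Real.sqrt_nonneg _)]
    have h6 : |q1 r - q1 ξ| ≤ 2 * MM b Λ * e := by
      have hξT : ξ ∈ Icc 0 T := hsub ⟨hξ.1.le, hξ.2.le⟩
      have h7 : ∀ s ∈ Icc ξ r, HasDerivWithinAt q1
          ((min (q s ^ n) 4 - (w + s ^ 2 / 16 - J s ^ 2)) * q s - k / s * q1 s) (Icc ξ r) s :=
        fun s hs => (h.hasDerivAt_q1 s ⟨by linarith [hs.1, hξ.1], by linarith [hs.2, hr.2]⟩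
          ).hasDerivWithinAt
      have h8 := Convex.norm_image_sub_le_of_norm_hasDerivWithin_le (C := 2 * MM b Λ) h7
        (fun s hs => by
          rw [Real.norm_eq_abs]
          exact h.abs_q2_le c hTb hk s ⟨by linarith [hs.1, hξ.1], by linarith [hs.2, hr.2]⟩)
        (convex_Icc ξ r) (left_mem_Icc.2 hξ.2.le) (right_mem_Icc.2 hξ.2.le)
      rw [Real.norm_eq_abs, Real.norm_eq_abs] at h8
      refine h8.trans ?_
      apply mul_le_mul_of_nonneg_left _ (by positivity)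
      rw [abs_of_nonneg (by linarith [hξ.2])]
      linarith [hξ.1]
    have h9 : |q1 r| ≤ |q1 ξ| + |q1 r - q1 ξ| := by
      have : q1 r = q1 ξ + (q1 r - q1 ξ) := by ring
      conv_lhs => rw [this]
      exact abs_add_le _ _
    calc |q1 r| ≤ 4 * Λ / Real.sqrt n + 2 * MM b Λ * e := by
          rw [h5] at h2; linarith
      _ = _ := by rw [he]; ring

end CoreSys

end Vale.Agent.P139.H844
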