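import Vale.Agent.P139.H844.Core2

/-!
# P139 / H844 : core estimates of the profile (block [P], P3 / P8), part 3:
the derivative of `J`, the upper bound `L' ≤ C/n` and the lower barrier
-/

open Set Filter Topology MeasureTheory

namespace Vale.Agent.P139.H844

namespace CoreSys

variable {k n : ℕ} {w T b Λ : ℝ} {q q1 J : ℝ → ℝ}

/-- The derivative of `J`. -/
theorem hasDerivAt_J (h : CoreSys k n w T q q1 J) :
    ∀ r ∈ Ioo 0 T, HasDerivAt J
      (((k : ℝ) + 1) / 4 - 1 / n - J r * (k / r + 2 * (q1 r / q r))) r := by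
  intro r hr
  have hr0 := hr.1
  have hr' : r ∈ Icc 0 T := ⟨hr.1.le, hr.2.le⟩
  have hq := h.pos r hr'
  set g : ℝ → ℝ := fun s => s ^ k * q s ^ 2 with hg
  have hint : ∀ s ∈ Ioo 0 T, IntervalIntegrable g volume 0 s := by
    intro s hs
    apply ContinuousOn.intervalIntegrable
    rw [uIcc_of_le hs.1.le]
    exact ((continuous_pow k).continuousOn).mul
      ((h.cont.mono (Icc_subset_Icc le_rfl hs.2.le)).pow 2)
  have hcr : ContinuousAt g r := by
    have h1 : ContinuousAt q r := (h.der r ⟨hr.1, hr.2.le⟩).continuousAt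
    exact ((continuous_pow k).continuousAt).mul (h1.pow 2)
  have hmeas : StronglyMeasurableAtFilter g (𝓝 r) volume := by
    refine ContinuousOn.stronglyMeasurableAtFilter isOpen_Ioo (s := Ioo 0 T) ?_ r hr
    intro s hs
    have h1 : ContinuousAt q s := (h.der s ⟨hs.1, hs.2.le⟩).continuousAt
    exact (((continuous_pow k).continuousAt).mul (h1.pow 2)).continuousWithinAt
  have hI : HasDerivAt (fun u => ∫ s in (0 : ℝ)..u, g s) (g r) r :=
    intervalIntegral.integral_hasDerivAt_right (hint r hr) hmeas hcr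
  have hrk : r ^ k ≠ 0 := (pow_pos hr.1 k).ne'
  have hden : HasDerivAt g ((k * r ^ (k - 1)) * q r ^ 2 + r ^ k * (2 * q r * q1 r)) r := by
    have h1 := (hasDerivAt_pow k r).mul ((h.der r ⟨hr.1, hr.2.le⟩).pow 2)
    refine h1.congr_deriv ?_
    simp
  have hgr : g r ≠ 0 := by
    have : 0 < r ^ k * q r ^ 2 := mul_pos (pow_pos hr.1 k) (pow_pos hq 2)
    exact this.ne'
  have h2 := (hI.const_mul (((k : ℝ) + 1) / 4 - 1 / n)).div hden hgr
  have h3 : (fun u => (((k : ℝ) + 1) / 4 - 1 / n) * (∫ s in (0 : ℝ)..u, g s) / g u)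
      =ᶠ[𝓝 r] J := by
    filter_upwards [Ioo_mem_nhds hr.1 hr.2] with s hs
    have h4 := h.flux s ⟨hs.1, hs.2.le⟩
    have h5 : g s ≠ 0 := by
      have : 0 < s ^ k * q s ^ 2 := mul_pos (pow_pos hs.1 k) (pow_pos (h.pos s ⟨hs.1.le, hs.2.le⟩) 2)
      exact this.ne'
    rw [div_eq_iff h5]
    exact h4.symm
  have h6 := h2.congr_of_eventuallyEq h3.symm
  refine h6.congr_deriv ?_
  have h7 : (((k : ℝ) + 1) / 4 - 1 / n) * (∫ s in (0 : ℝ)..r, g s) = J r * g r :=
    (h.flux r ⟨hr.1, hr.2.le⟩).symm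
  rw [h7]
  have e1 : (k : ℝ) * r ^ (k - 1) = k / r * r ^ k := by
    rcases Nat.eq_zero_or_pos k with hk | hk
    · subst hk; simp
    · have : r ^ k = r ^ (k - 1) * r := by rw [← pow_succ, Nat.sub_add_cancel hk]
      rw [this]; field_simp
  rw [e1]
  have e2 : g r = r ^ k * q r ^ 2 := rfl
  have hq' := hq.ne'
  rw [div_eq_iff (pow_ne_zero 2 hgr)]
  rw [e2]
  field_simp

/-- `q1 T ≤ 0`: the level `w/2` is hit from above. -/
theorem q1_T (h : CoreSys k n w T q q1 J) (hn : n ≠ 0) : q1 T ≤ 0 := by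
  have h1 : HasDerivAt q (q1 T) T := h.der T ⟨h.hT, le_rfl⟩
  have h2 : Tendsto (slope q T) (𝓝[<] T) (𝓝 (q1 T)) :=
    (hasDerivAt_iff_tendsto_slope.1 h1).mono_left (nhdsWithin_mono _ (fun x hx => ne_of_lt hx))
  apply le_of_tendsto h2
  filter_upwards [Ioo_mem_nhdsLT h.hT] with r hr
  have hrI : r ∈ Icc 0 T := ⟨hr.1.le, hr.2.le⟩
  have hqr := h.pos r hrI
  have hqT := h.pos T ⟨h.hT.le, le_rfl⟩
  have h3 : q T ≤ q r := by
    by_contra hcon
    push Not at hcon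
    have h4 := pow_lt_pow_left₀ hcon hqr.le hn
    rw [h.hit] at h4
    exact absurd (h.low r hrI) (not_le.2 h4)
  rw [slope_def_field]
  apply div_nonpos_of_nonneg_of_nonpos (by linarith) (by linarith [hr.2])

/-- constant for the bound of `L'`. -/
noncomputable def C3 (k : ℕ) (Λ : ℝ) : ℝ :=
  (k : ℝ) * (2 * Λ + 1) / 2 + 2 * k * (2 * Λ + 1) + 3 / 2

/-- Algebraic estimate of `B'`. -/
theorem B1_le {k n Λ r w b y J : ℝ} (hn : 0 < n) (hΛ : 1 ≤ Λ) (hr0 : 0 < r) (hrb : r ≤ b)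
    (hk : 3 ≤ k) (hw : 0 < w) (hy : 0 < y) (hJ0 : 0 ≤ J) (hJ1 : J ≤ 3 * r / 4)
    (hE : |J - r / 4| ≤ (2 * Λ + 1) * r / n) (hn1 : 9 * b ^ 2 ≤ w * n) (hn2 : 2 * Λ + 1 ≤ n) :
    r / 8 - 2 * J * ((k + 1) / 4 - 1 / n - J * (k / r + 2 * (y / n))) ≤
      (k * (2 * Λ + 1) / 2 + 2 * k * (2 * Λ + 1) + 3 / 2) * (r / n) + w / 4 * y := by
  set e : ℝ := J - r / 4 with hedef
  have hJe : J = r / 4 + e := by rw [hedef]; ring
  have hB1e : r / 8 - 2 * J * ((k + 1) / 4 - 1 / n - J * (k / r + 2 * (y / n))) =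
      (k - 1) * e / 2 + 2 * k * e ^ 2 / r + 2 * J / n + 4 * J ^ 2 * y / n := by
    have h1 : r / 8 - 2 * J * ((k + 1) / 4 - 1 / n - J * (k / r + 2 * (y / n))) =
        r / 8 - ((k + 1) / 2) * J + 2 * J / n + 2 * k * J ^ 2 / r + 4 * J ^ 2 * y / n := by
      field_simp
      ring
    have h2 : r / 8 - ((k + 1) / 2) * J + 2 * k * J ^ 2 / r =
        (k - 1) * e / 2 + 2 * k * e ^ 2 / r := by
      rw [hJe]
      field_simp
      ring
    rw [h1]
    linarith
  have hEn : (2 * Λ + 1) / n ≤ 1 := by rw [div_le_one hn]; exact hn2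
  have h1 : (k - 1) * e / 2 ≤ k * (2 * Λ + 1) / 2 * (r / n) := by
    have h2 := (abs_le.1 hE).2
    have h3 : (k - 1) * e ≤ k * ((2 * Λ + 1) * r / n) := by
      calc (k - 1) * e ≤ (k - 1) * ((2 * Λ + 1) * r / n) :=
            mul_le_mul_of_nonneg_left h2 (by linarith)
        _ ≤ k * ((2 * Λ + 1) * r / n) := by
            apply mul_le_mul_of_nonneg_right (by linarith) (by positivity)
    calc (k - 1) * e / 2 ≤ k * ((2 * Λ + 1) * r / n) / 2 := by linarith
      _ = _ := by ring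
  have h2 : 2 * k * e ^ 2 / r ≤ 2 * k * (2 * Λ + 1) * (r / n) := by
    have h3 : e ^ 2 ≤ ((2 * Λ + 1) * r / n) * ((2 * Λ + 1) * r / n) := by
      rw [← sq_abs e, sq]
      exact mul_le_mul hE hE (abs_nonneg _) ((abs_nonneg _).trans hE)
    have h4 : ((2 * Λ + 1) * r / n) * ((2 * Λ + 1) * r / n) ≤ ((2 * Λ + 1) * r / n) * r := by
      apply mul_le_mul_of_nonneg_left _ (by positivity)
      calc (2 * Λ + 1) * r / n = (2 * Λ + 1) / n * r := by ring
        _ ≤ 1 * r := mul_le_mul_of_nonneg_right hEn hr0.le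
        _ = r := one_mul r
    calc 2 * k * e ^ 2 / r ≤ 2 * k * (((2 * Λ + 1) * r / n) * r) / r := by
          apply div_le_div_of_nonneg_right _ hr0.le
          apply mul_le_mul_of_nonneg_left (h3.trans h4) (by positivity)
      _ = _ := by field_simp
  have h3 : 2 * J / n ≤ 3 / 2 * (r / n) := by
    calc 2 * J / n ≤ (3 / 2 * r) / n := div_le_div_of_nonneg_right (by linarith) hn.le
      _ = _ := by ring
  have h4 : 4 * J ^ 2 * y / n ≤ w / 4 * y := by
    rw [div_le_iff₀ hn]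
    have h5 : J ^ 2 ≤ (3 * r / 4) ^ 2 := pow_le_pow_left₀ hJ0 hJ1 2
    have h6 : r ^ 2 ≤ b ^ 2 := pow_le_pow_left₀ hr0.le hrb 2
    have h7 : 4 * J ^ 2 ≤ w / 4 * n := by nlinarith
    calc 4 * J ^ 2 * y ≤ w / 4 * n * y := mul_le_mul_of_nonneg_right h7 hy.le
      _ = w / 4 * y * n := by ring
  rw [hB1e]
  have e5 : (k * (2 * Λ + 1) / 2 + 2 * k * (2 * Λ + 1) + 3 / 2) * (r / n) =
      k * (2 * Λ + 1) / 2 * (r / n) + 2 * k * (2 * Λ + 1) * (r / n) + 3 / 2 * (r / n) := by ring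
  rw [e5]
  linarith

/-- Upper bound of `L' = n q'/q`. -/
theorem L1_le (h : CoreSys k n w T q q1 J) (c : Cst n w b Λ) (hTb : T ≤ b) (hk : 3 ≤ k)
    (hn1 : 9 * b ^ 2 ≤ w * n) (hn2 : 2 * Λ + 1 ≤ n) :
    ∀ r ∈ Icc 0 T, n * (q1 r / q r) ≤ 4 * C3 k Λ * b / (w * n) := by
  have hn := n_pos c
  have hΛ := c.hΛ
  have hw := c.hw
  have hb := c.hb
  have hC3 : 0 < C3 k Λ := by unfold C3; positivity
  have hm0 : 0 ≤ 4 * C3 k Λ * b / (w * n) := by positivity
  set G : ℝ → ℝ := fun r => n * (q r ^ n - (w + r ^ 2 / 16 - J r ^ 2)) -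
    k / r * (n * (q1 r / q r)) - (n * (q1 r / q r)) ^ 2 / n with hG
  have hqc : ∀ r ∈ Icc 0 T, q r ≠ 0 := fun r hr => (h.pos r hr).ne'
  have hκ : ∀ r ∈ Ioo 0 T, HasDerivAt (fun s => n * (q1 s / q s)) (G r) r := by
    intro r hr
    have hr' : r ∈ Icc 0 T := ⟨hr.1.le, hr.2.le⟩
    have h1 := h.hasDerivAt_q1 r ⟨hr.1, hr.2.le⟩
    have h2 := h.der r ⟨hr.1, hr.2.le⟩
    have h3 := (h1.div h2 (hqc r hr')).const_mul (n : ℝ)
    refine h3.congr_deriv ?_
    rw [h.min_eq c hTb r hr', hG]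
    have hq0 := hqc r hr'
    have hr0 := hr.1.ne'
    field_simp
  set B1 : ℝ → ℝ := fun r => r / 8 - 2 * J r *
    (((k : ℝ) + 1) / 4 - 1 / n - J r * (k / r + 2 * (q1 r / q r))) with hB1
  have hGd : ∀ r ∈ Ioo 0 T, HasDerivAt G
      (n * (q r ^ n * (n * (q1 r / q r)) - B1 r) - (k / r * G r - k / r ^ 2 * (n * (q1 r / q r)))
        - 2 * (n * (q1 r / q r)) * G r / n) r := by
    intro r hr
    have hr' : r ∈ Icc 0 T := ⟨hr.1.le, hr.2.le⟩
    have hq0 := hqc r hr'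
    have hr0 := hr.1.ne'
    have hP : HasDerivAt (fun s => q s ^ n) (q r ^ n * (n * (q1 r / q r))) r := by
      have h2 := (h.der r ⟨hr.1, hr.2.le⟩).pow n
      refine h2.congr_deriv ?_
      have : q r ^ n = q r ^ (n - 1) * q r := by
        rw [← pow_succ, Nat.sub_add_cancel (Nat.one_le_iff_ne_zero.2 (n_ne c))]
      rw [this]
      field_simp
    have hJ := h.hasDerivAt_J r hr
    have hB : HasDerivAt (fun s => w + s ^ 2 / 16 - J s ^ 2) (B1 r) r := by
      have h3 := (((hasDerivAt_pow 2 r).div_const 16).const_add w).sub (hJ.pow 2)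
      refine h3.congr_deriv ?_
      rw [hB1]
      simp
      ring
    have hy := hκ r hr
    have hkr : HasDerivAt (fun s : ℝ => (k : ℝ) / s) (-(k / r ^ 2)) r := by
      have := (hasDerivAt_inv hr0).const_mul (k : ℝ)
      refine (this.congr_of_eventuallyEq ?_).congr_deriv ?_
      · filter_upwards with s
        rw [div_eq_mul_inv]
      · ring
    have h5 := (((hP.sub hB).const_mul (n : ℝ)).sub (hkr.mul hy)).sub ((hy.pow 2).div_const (n : ℝ))
    refine h5.congr_deriv ?_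
    simp
    ring
  have hcont : ContinuousOn (fun s => n * (q1 s / q s)) (Icc 0 T) :=
    continuousOn_const.mul ((h.continuousOn_q1 c hTb hk).div h.cont hqc)
  apply deriv_max h.hT hcont hκ hGd
  · intro r hr hmr hG0
    have hr' : r ∈ Icc 0 T := ⟨hr.1.le, hr.2.le⟩
    have hr0 := hr.1
    have hrb : r ≤ b := hr.2.le.trans hTb
    have hk' : (3 : ℝ) ≤ k := by exact_mod_cast hk
    rw [hG0]
    simp only [mul_zero, zero_div, sub_zero, zero_sub]
    set y : ℝ := n * (q1 r / q r) with hy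
    have hy0 : 0 < y := lt_of_le_of_lt hm0 hmr
    have hP := h.low r hr'
    obtain ⟨hJ0, hJ1⟩ := h.J_nonneg c hTb hk r ⟨hr.1, hr.2.le⟩
    have he := h.abs_J_sub c hTb hk r ⟨hr.1, hr.2.le⟩
    have hB1le : B1 r ≤ C3 k Λ * (r / n) + w / 4 * y := by
      have hyq : q1 r / q r = y / n := by rw [hy]; field_simp
      rw [hB1, C3]
      simp only
      rw [hyq]
      exact B1_le hn hΛ hr0 hrb hk' hw hy0 hJ0 hJ1 he hn1 hn2
    have h5 : C3 k Λ * (r / n) < w / 4 * y := by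
      have h6 : C3 k Λ * (r / n) ≤ C3 k Λ * (b / n) := by
        apply mul_le_mul_of_nonneg_left _ hC3.le
        exact div_le_div_of_nonneg_right hrb hn.le
      have h7 : C3 k Λ * (b / n) = w / 4 * (4 * C3 k Λ * b / (w * n)) := by
        field_simp
      have h8 : w / 4 * (4 * C3 k Λ * b / (w * n)) < w / 4 * y :=
        mul_lt_mul_of_pos_left hmr (by positivity)
      linarith
    have h6 : w / 2 * y ≤ q r ^ n * y := mul_le_mul_of_nonneg_right hP hy0.le
    have h7 : 0 < q r ^ n * y - B1 r := by linarith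
    have h8 : 0 < (k : ℝ) / r ^ 2 * y := by positivity
    have h9 : 0 < (n : ℝ) * (q r ^ n * y - B1 r) := mul_pos hn h7
    linarith
  · simp only [h.q10, zero_div, mul_zero]
    exact hm0
  · have h1 := h.q1_T (n_ne c)
    have h2 := h.pos T ⟨h.hT.le, le_rfl⟩
    have h3 : (n : ℝ) * (q1 T / q T) ≤ 0 :=
      mul_nonpos_of_nonneg_of_nonpos hn.le (div_nonpos_of_nonpos_of_nonneg h1 h2.le)
    linarith

end CoreSys

end Vale.Agent.P139.H844
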