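import Vale.Agent.P139.H844.Core3

/-!
# P139 / H844 : core estimates of the profile (block [P], P3 / P8), part 4: the lower barrier
-/

open Set Filter Topology MeasureTheory

namespace Vale.Agent.P139.H844

theorem sinh_le_mul_cosh {x : ℝ} (hx : 0 ≤ x) : Real.sinh x ≤ x * Real.cosh x := by
  have h : ∀ t : ℝ, HasDerivAt (fun s => s * Real.cosh s - Real.sinh s) (t * Real.sinh t) t := by
    intro t
    have := ((hasDerivAt_id t).mul (Real.hasDerivAt_cosh t)).sub (Real.hasDerivAt_sinh t)
    refine this.congr_deriv ?_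
    simp
  have hm : MonotoneOn (fun s => s * Real.cosh s - Real.sinh s) (Ici 0) := by
    apply monotoneOn_of_deriv_nonneg (convex_Ici 0)
    · exact (fun s _ => (h s).continuousAt.continuousWithinAt)
    · exact (fun s _ => (h s).differentiableAt.differentiableWithinAt)
    · intro s hs
      rw [interior_Ici] at hs
      rw [(h s).deriv]
      have hs' : (0 : ℝ) < s := hs
      exact mul_nonneg hs'.le (Real.sinh_nonneg_iff.2 hs'.le)
  have := hm (mem_Ici.2 le_rfl) (mem_Ici.2 hx) hx
  simp only [zero_mul, Real.sinh_zero, sub_zero] at this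
  linarith

theorem exp_neg_le_half {v : ℝ} (h0 : 0 ≤ v) (h1 : v ≤ 1) : Real.exp (-v) ≤ 1 - v / 2 := by
  have h2 := Real.add_one_le_exp v
  rw [Real.exp_neg]
  have h3 : (Real.exp v)⁻¹ ≤ (v + 1)⁻¹ := inv_anti₀ (by linarith) h2
  refine h3.trans ?_
  rw [inv_le_iff_one_le_mul₀ (by linarith)]
  nlinarith

theorem cosh_div_le {x y : ℝ} : Real.cosh x / Real.cosh y ≤ 2 * Real.exp (|x| - y) := by
  rw [div_le_iff₀ (Real.cosh_pos y), ← Real.cosh_abs x]
  have h1 : Real.cosh |x| ≤ Real.exp |x| := by
    rw [Real.cosh_eq]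
    have : Real.exp (-|x|) ≤ Real.exp |x| := Real.exp_le_exp.2 (by linarith [abs_nonneg x])
    linarith
  have h2 : Real.exp y / 2 ≤ Real.cosh y := by
    rw [Real.cosh_eq]
    have := Real.exp_pos (-y)
    linarith
  calc Real.cosh |x| ≤ Real.exp |x| := h1
    _ = 2 * Real.exp (|x| - y) * (Real.exp y / 2) := by
        rw [Real.exp_sub]; field_simp
    _ ≤ 2 * Real.exp (|x| - y) * Real.cosh y :=
        mul_le_mul_of_nonneg_left h2 (by positivity)

namespace CoreSys

variable {k n : ℕ} {w T b Λ : ℝ} {q q1 J : ℝ → ℝ}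

/-- The decay rate of the barrier. -/
noncomputable def kap (k n : ℕ) (w : ℝ) : ℝ := Real.sqrt (n * w / (2 * (k + 1)))

/-- Lower barrier, logarithmic form. -/
theorem log_barrier (h : CoreSys k n w T q q1 J) (c : Cst n w b Λ) (hTb : T ≤ b) (hk : 3 ≤ k) :
    ∀ r ∈ Icc 0 T, Real.log w - n * Real.log (q r) ≤
      2 * (2 * Λ + 1) * b ^ 2 / w / n + Real.log 2 * (Real.cosh (kap k n w * r) /
        Real.cosh (kap k n w * T)) := by
  have hn := n_pos c
  have hΛ := c.hΛ
  have hw := c.hw
  have hb := c.hb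
  set A : ℝ := 2 * (2 * Λ + 1) * b ^ 2 / w with hA
  have hA0 : 0 < A := by positivity
  set κ : ℝ := kap k n w with hκ
  have hκ2 : κ ^ 2 = n * w / (2 * (k + 1)) := by
    rw [hκ, kap, Real.sq_sqrt (by positivity)]
  have hκ0 : 0 < κ := by rw [hκ, kap]; exact Real.sqrt_pos.2 (by positivity)
  have hch : 0 < Real.cosh (κ * T) := Real.cosh_pos _
  have hl2 : 0 < Real.log 2 := Real.log_pos (by norm_num)
  have hl2' : Real.log 2 ≤ 1 := by
    have := Real.log_two_lt_d9; linarith
  have hqc : ∀ r ∈ Icc 0 T, q r ≠ 0 := fun r hr => (h.pos r hr).ne'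
  set β : ℝ → ℝ := fun r => A / n + Real.log 2 * (Real.cosh (κ * r) / Real.cosh (κ * T)) with hβ
  set β1 : ℝ → ℝ := fun r => Real.log 2 * (κ * Real.sinh (κ * r) / Real.cosh (κ * T)) with hβ1
  set β2 : ℝ → ℝ := fun r => Real.log 2 * (κ ^ 2 * Real.cosh (κ * r) / Real.cosh (κ * T)) with hβ2
  have hlin : ∀ r : ℝ, HasDerivAt (fun s : ℝ => κ * s) κ r := by
    intro r; simpa using (hasDerivAt_id r).const_mul κ
  have dβ : ∀ r, HasDerivAt β (β1 r) r := by
    intro r
    have h1 := ((((Real.hasDerivAt_cosh (κ * r)).comp r (hlin r)).div_const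
      (Real.cosh (κ * T))).const_mul (Real.log 2)).const_add (A / n)
    refine h1.congr_deriv ?_
    rw [hβ1]; ring
  have dβ1 : ∀ r, HasDerivAt β1 (β2 r) r := by
    intro r
    have h1 := (((((Real.hasDerivAt_sinh (κ * r)).comp r (hlin r)).const_mul κ).div_const
      (Real.cosh (κ * T))).const_mul (Real.log 2))
    refine h1.congr_deriv ?_
    rw [hβ2]; ring
  have key : ∀ r ∈ Icc 0 T, (Real.log w - n * Real.log (q r) - β r) ≤
      max 0 (Real.log w - n * Real.log (q T) - β T) := by
    apply radial_max (k := k) (z := fun r => Real.log w - n * Real.log (q r) - β r)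
      (z1 := fun r => -(n * (q1 r / q r)) - β1 r)
      (y' := fun r => r ^ k * (-(n * (min (q r ^ n) 4 - (w + r ^ 2 / 16 - J r ^ 2))) +
        n * (q1 r / q r) ^ 2 - k / r * β1 r - β2 r)) (m := 0) h.hT
    · apply ContinuousOn.sub
      · exact continuousOn_const.sub (continuousOn_const.mul (h.cont.log hqc))
      · exact fun r _ => (dβ r).continuousAt.continuousWithinAt
    · intro r hr
      have h1 := (h.der r ⟨hr.1, hr.2.le⟩).log (hqc r ⟨hr.1.le, hr.2.le⟩)
      have h2 := ((h1.const_mul (n : ℝ)).const_sub (Real.log w)).sub (dβ r)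
      exact h2
    · intro r hr
      have hr' : r ∈ Icc 0 T := ⟨hr.1.le, hr.2.le⟩
      have hq0 := hqc r hr'
      have hr0 := hr.1.ne'
      have h1 := h.der2 r ⟨hr.1, hr.2.le⟩
      have h2 := h.der r ⟨hr.1, hr.2.le⟩
      have h3 := ((h1.div h2 hq0).const_mul (n : ℝ)).neg
      have h4 := (hasDerivAt_pow k r).mul (dβ1 r)
      have h5 := h3.sub h4
      have h6 : (fun s => s ^ k * (-(n * (q1 s / q s)) - β1 s)) =
          ((-fun x => (n : ℝ) * ((fun s => s ^ k * q1 s) / q) x) - (fun x => x ^ k) * β1) := by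
        funext s
        simp only [Pi.sub_apply, Pi.neg_apply, Pi.div_apply, Pi.mul_apply]
        ring
      rw [h6]
      refine h5.congr_deriv ?_
      have e1 : (k : ℝ) * r ^ (k - 1) = k / r * r ^ k := by
        rcases Nat.eq_zero_or_pos k with hk0 | hk0
        · subst hk0; simp
        · have : r ^ k = r ^ (k - 1) * r := by rw [← pow_succ, Nat.sub_add_cancel hk0]
          rw [this]; field_simp
      rw [e1]
      field_simp
      ring
    · -- limit at zero
      have h0 : (0 : ℝ) ∈ Icc 0 T := ⟨le_rfl, h.hT.le⟩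
      have hq : Tendsto q (𝓝[>] 0) (𝓝 (q 0)) := by
        have h1 : ContinuousWithinAt q (Icc 0 T) 0 := h.cont 0 h0
        have h2 : 𝓝[>] (0 : ℝ) ≤ 𝓝[Icc 0 T] 0 := by
          rw [← nhdsWithin_Ioo_eq_nhdsGT h.hT]
          exact nhdsWithin_mono _ Ioo_subset_Icc_self
        exact h1.tendsto.mono_left h2
      have h1 : Tendsto (fun s => -(n * ((s ^ k * q1 s) / q s))) (𝓝[>] 0)
          (𝓝 (-((n : ℝ) * (0 / q 0)))) :=
        ((h.lim0.div hq (hqc 0 h0)).const_mul (n : ℝ)).neg
      have h2 : Tendsto (fun s => s ^ k * β1 s) (𝓝[>] 0) (𝓝 (0 ^ k * β1 0)) :=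
        (((continuous_pow k).continuousAt.mul (dβ1 0).continuousAt).tendsto).mono_left
          nhdsWithin_le_nhds
      have h3 := h1.sub h2
      have hk0 : k ≠ 0 := by omega
      simp only [zero_div, mul_zero, neg_zero, ne_eq, hk0, not_false_eq_true, zero_pow, zero_mul,
        sub_zero] at h3
      refine h3.congr ?_
      intro s
      ring
    · intro r hr hz
      have hr' : r ∈ Icc 0 T := ⟨hr.1.le, hr.2.le⟩
      have hr0 := hr.1
      have hqr := h.pos r hr'
      rw [h.min_eq c hTb r hr']
      set v : ℝ := Real.log w - n * Real.log (q r) with hv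
      have hP : q r ^ n = w * Real.exp (-v) := by
        have : -v = Real.log (q r ^ n) - Real.log w := by
          rw [hv, Real.log_pow]; ring
        rw [this, Real.exp_sub, Real.exp_log (pow_pos hqr n), Real.exp_log hw]
        field_simp
      have hβ0 : A / n ≤ β r := by
        rw [hβ]
        have := Real.cosh_pos (κ * r)
        have : 0 ≤ Real.log 2 * (Real.cosh (κ * r) / Real.cosh (κ * T)) := by positivity
        simp only
        linarith
      have hv0 : 0 < v := by
        have : 0 < A / n := by positivity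
        linarith
      have hv1 : v ≤ 1 := by
        have h1 := h.low r hr'
        rw [hP] at h1
        have h2 : 1 / 2 ≤ Real.exp (-v) := by
          have : w * (1 / 2) ≤ w * Real.exp (-v) := by linarith
          exact le_of_mul_le_mul_left this hw
        have h3 : Real.log (1 / 2) ≤ -v := by
          rw [Real.log_le_iff_le_exp (by norm_num)]; exact h2
        rw [one_div, Real.log_inv] at h3
        linarith
      have h1 := exp_neg_le_half hv0.le hv1
      have h2 : q r ^ n ≤ w - w * v / 2 := by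
        rw [hP]
        have := mul_le_mul_of_nonneg_left h1 hw.le
        linarith
      have h3 := (abs_le.1 (h.abs_B_sub c hTb hk r ⟨hr.1, hr.2.le⟩)).1
      have h4 : (2 * Λ + 1) * r ^ 2 / n ≤ (2 * Λ + 1) * b ^ 2 / n := by
        apply div_le_div_of_nonneg_right _ hn.le
        apply mul_le_mul_of_nonneg_left _ (by positivity)
        exact pow_le_pow_left₀ hr.1.le (hr.2.le.trans hTb) 2
      have h5 : w * v / 2 - (2 * Λ + 1) * b ^ 2 / n ≤
          -(q r ^ n - (w + r ^ 2 / 16 - J r ^ 2)) := by linarith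
      have h6 : n * w * v / 2 - (2 * Λ + 1) * b ^ 2 ≤
          -(n * (q r ^ n - (w + r ^ 2 / 16 - J r ^ 2))) := by
        have := mul_le_mul_of_nonneg_left h5 hn.le
        have e : (n : ℝ) * (w * v / 2 - (2 * Λ + 1) * b ^ 2 / n) =
            n * w * v / 2 - (2 * Λ + 1) * b ^ 2 := by field_simp
        rw [e] at this
        linarith
      have h7 : (k : ℝ) / r * β1 r ≤ k * β2 r := by
        have hs := sinh_le_mul_cosh (x := κ * r) (by positivity)
        rw [hβ1, hβ2]
        simp only
        have : (k : ℝ) / r * (Real.log 2 * (κ * Real.sinh (κ * r) / Real.cosh (κ * T))) =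
            k * (Real.log 2 * κ / r / Real.cosh (κ * T)) * Real.sinh (κ * r) := by ring
        rw [this]
        calc (k : ℝ) * (Real.log 2 * κ / r / Real.cosh (κ * T)) * Real.sinh (κ * r)
            ≤ k * (Real.log 2 * κ / r / Real.cosh (κ * T)) * (κ * r * Real.cosh (κ * r)) :=
              mul_le_mul_of_nonneg_left hs (by positivity)
          _ = _ := by field_simp
      have h8 : ((k : ℝ) + 1) * β2 r = n * w / 2 * (β r - A / n) := by
        rw [hβ2, hβ]
        simp only
        rw [hκ2]
        field_simp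
        ring
      have h9 : 0 < v - β r := hz
      have h10 : 0 ≤ (n : ℝ) * (q1 r / q r) ^ 2 := by positivity
      have h11 : n * w / 2 * (A / n) = (2 * Λ + 1) * b ^ 2 := by
        rw [hA]; field_simp
      have h12 : 0 < n * w / 2 * (v - β r) := by positivity
      have h13 : 0 < r ^ k := pow_pos hr0 k
      apply mul_pos h13
      nlinarith
  have hT' : Real.log w - n * Real.log (q T) - β T ≤ 0 := by
    have h1 : (n : ℝ) * Real.log (q T) = Real.log w - Real.log 2 := by
      rw [← Real.log_pow, h.hit, Real.log_div hw.ne' (by norm_num)]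
    rw [h1, hβ]
    simp only
    rw [div_self hch.ne']
    have : 0 < A / n := by positivity
    linarith
  intro r hr
  have h1 := key r hr
  rw [max_eq_left hT'] at h1
  have : β r = 2 * (2 * Λ + 1) * b ^ 2 / w / n + Real.log 2 * (Real.cosh (κ * r) /
        Real.cosh (κ * T)) := rfl
  linarith

/-- Lower barrier: `P ≥ w (1 - A/n - 2 e^{-κ (T - r)})`. -/
theorem barrier (h : CoreSys k n w T q q1 J) (c : Cst n w b Λ) (hTb : T ≤ b) (hk : 3 ≤ k) :
    ∀ r ∈ Icc 0 T, w * (1 - 2 * (2 * Λ + 1) * b ^ 2 / w / n -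
      2 * Real.exp (-(kap k n w * (T - r)))) ≤ q r ^ n := by
  intro r hr
  have hw := c.hw
  have h1 := h.log_barrier c hTb hk r hr
  have hqr := h.pos r hr
  set v : ℝ := Real.log w - n * Real.log (q r) with hv
  have hP : q r ^ n = w * Real.exp (-v) := by
    have : -v = Real.log (q r ^ n) - Real.log w := by
      rw [hv, Real.log_pow]; ring
    rw [this, Real.exp_sub, Real.exp_log (pow_pos hqr n), Real.exp_log hw]
    field_simp
  rw [hP]
  apply mul_le_mul_of_nonneg_left _ hw.le
  have h2 := Real.add_one_le_exp (-v)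
  have hκ0 : 0 ≤ kap k n w := Real.sqrt_nonneg _
  have h3 := cosh_div_le (x := kap k n w * r) (y := kap k n w * T)
  rw [abs_of_nonneg (mul_nonneg hκ0 hr.1)] at h3
  have h4 : kap k n w * r - kap k n w * T = -(kap k n w * (T - r)) := by ring
  rw [h4] at h3
  have hl2 : 0 < Real.log 2 := Real.log_pos (by norm_num)
  have hl2' : Real.log 2 ≤ 1 := by
    have := Real.log_two_lt_d9; linarith
  have h5 : Real.log 2 * (Real.cosh (kap k n w * r) / Real.cosh (kap k n w * T)) ≤
      1 * (2 * Real.exp (-(kap k n w * (T - r)))) := by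
    apply mul_le_mul hl2' h3 _ (by norm_num)
    have := Real.cosh_pos (kap k n w * r)
    have := Real.cosh_pos (kap k n w * T)
    positivity
  linarith

end CoreSys

end Vale.Agent.P139.H844
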