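import Vale.Agent.P139.H844.Core4
import Vale.Agent.P139.H460.PSpec

/-!
# P139 / H844 : core estimates, part 5 : from the complex profile equation to the real system
-/

open Set Filter Topology Complex

namespace Vale.Agent.P139.H844

/-- Products of the components of the solution and its derivative. -/
noncomputable def Af (Q Q1 : ℝ → ℂ) (r : ℝ) : ℝ := (Q r).re * (Q1 r).re + (Q r).im * (Q1 r).im

/-- Momentum density. -/
noncomputable def Gf (Q Q1 : ℝ → ℂ) (r : ℝ) : ℝ := (Q r).re * (Q1 r).im - (Q r).im * (Q1 r).re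

/-- Radial derivative of the modulus. -/
noncomputable def q1f (Q Q1 : ℝ → ℂ) (r : ℝ) : ℝ := Af Q Q1 r / ‖Q r‖

/-- Shifted phase derivative. -/
noncomputable def Jf (Q Q1 : ℝ → ℂ) (r : ℝ) : ℝ := Gf Q Q1 r / ‖Q r‖ ^ 2 + r / 4

theorem hasDerivAt_re {f : ℝ → ℂ} {f' : ℂ} {r : ℝ} (h : HasDerivAt f f' r) :
    HasDerivAt (fun s => (f s).re) f'.re r := by
  exact Complex.reCLM.hasFDerivAt.comp_hasDerivAt r h

theorem hasDerivAt_im {f : ℝ → ℂ} {f' : ℂ} {r : ℝ} (h : HasDerivAt f f' r) :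
    HasDerivAt (fun s => (f s).im) f'.im r := by
  exact Complex.imCLM.hasFDerivAt.comp_hasDerivAt r h

theorem norm_sq_eq (z : ℂ) : ‖z‖ ^ 2 = z.re ^ 2 + z.im ^ 2 := by
  rw [Complex.sq_norm, Complex.normSq_apply]; ring

/-- Derivative of the modulus. -/
theorem hasDerivAt_norm {Q Q1 : ℝ → ℂ} {r : ℝ} (h : HasDerivAt Q (Q1 r) r) (h0 : Q r ≠ 0) :
    HasDerivAt (fun s => ‖Q s‖) (q1f Q Q1 r) r := by
  have hre := hasDerivAt_re h
  have him := hasDerivAt_im h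
  have h1 : HasDerivAt (fun s => (Q s).re ^ 2 + (Q s).im ^ 2) (2 * Af Q Q1 r) r := by
    refine ((hre.pow 2).add (him.pow 2)).congr_deriv ?_
    simp [Af]; ring
  have hq : 0 < ‖Q r‖ := norm_pos_iff.2 h0
  have h2 : (Q r).re ^ 2 + (Q r).im ^ 2 ≠ 0 := by
    rw [← norm_sq_eq]; positivity
  have h3 := h1.sqrt h2
  have h4 : (fun s => Real.sqrt ((Q s).re ^ 2 + (Q s).im ^ 2)) = fun s => ‖Q s‖ := by
    funext s
    rw [← norm_sq_eq, Real.sqrt_sq (norm_nonneg _)]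
  rw [h4] at h3
  refine h3.congr_deriv ?_
  rw [← norm_sq_eq, Real.sqrt_sq (norm_nonneg _), q1f]
  field_simp

/-- Real components of the second order equation. -/
theorem comp_deriv {Q1 : ℝ → ℂ} {r k a w P : ℝ} {Z : ℂ}
    (h : HasDerivAt Q1 (-(((k / r : ℝ) : ℂ) + I * (r / 2 : ℝ)) * Q1 r - ((w : ℂ) + I * a) * Z
      + P * Z) r) :
    HasDerivAt (fun s => (Q1 s).re) (-(k / r) * (Q1 r).re + r / 2 * (Q1 r).im - w * Z.re
      + a * Z.im + P * Z.re) r ∧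
    HasDerivAt (fun s => (Q1 s).im) (-(k / r) * (Q1 r).im - r / 2 * (Q1 r).re - w * Z.im
      - a * Z.re + P * Z.im) r := by
  constructor
  · refine (hasDerivAt_re h).congr_deriv ?_
    simp
    ring
  · refine (hasDerivAt_im h).congr_deriv ?_
    simp
    ring

theorem hasDerivAt_Af {Q Q1 : ℝ → ℂ} {r k a w P : ℝ} (h0 : HasDerivAt Q (Q1 r) r)
    (h : HasDerivAt Q1 (-(((k / r : ℝ) : ℂ) + I * (r / 2 : ℝ)) * Q1 r - ((w : ℂ) + I * a) * Q r
      + P * Q r) r) :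
    HasDerivAt (Af Q Q1) ((Q1 r).re ^ 2 + (Q1 r).im ^ 2 - k / r * Af Q Q1 r + r / 2 * Gf Q Q1 r
      + (P - w) * ((Q r).re ^ 2 + (Q r).im ^ 2)) r := by
  obtain ⟨h1, h2⟩ := comp_deriv h
  have h3 := ((hasDerivAt_re h0).mul h1).add ((hasDerivAt_im h0).mul h2)
  refine h3.congr_deriv ?_
  simp only [Af, Gf]
  ring

theorem hasDerivAt_Gf {Q Q1 : ℝ → ℂ} {r k a w P : ℝ} (h0 : HasDerivAt Q (Q1 r) r)
    (h : HasDerivAt Q1 (-(((k / r : ℝ) : ℂ) + I * (r / 2 : ℝ)) * Q1 r - ((w : ℂ) + I * a) * Q r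
      + P * Q r) r) :
    HasDerivAt (Gf Q Q1) (-(k / r) * Gf Q Q1 r - r / 2 * Af Q Q1 r
      - a * ((Q r).re ^ 2 + (Q r).im ^ 2)) r := by
  obtain ⟨h1, h2⟩ := comp_deriv h
  have h3 := ((hasDerivAt_re h0).mul h2).sub ((hasDerivAt_im h0).mul h1)
  refine h3.congr_deriv ?_
  simp only [Af, Gf]
  ring

theorem Lagrange_id (Q Q1 : ℝ → ℂ) (r : ℝ) :
    ((Q1 r).re ^ 2 + (Q1 r).im ^ 2) * ‖Q r‖ ^ 2 = Af Q Q1 r ^ 2 + Gf Q Q1 r ^ 2 := by
  rw [norm_sq_eq, Af, Gf]; ring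

/-- The radial equation for the modulus. -/
theorem hasDerivAt_rq1 {Q Q1 : ℝ → ℂ} {r a w P : ℝ} {k : ℕ} (hr : 0 < r) (hQ : Q r ≠ 0)
    (h0 : HasDerivAt Q (Q1 r) r)
    (h : HasDerivAt Q1 (-((((k : ℝ) / r : ℝ) : ℂ) + I * (r / 2 : ℝ)) * Q1 r
      - ((w : ℂ) + I * a) * Q r + P * Q r) r) :
    HasDerivAt (fun s => s ^ k * q1f Q Q1 s)
      (r ^ k * ((P - (w + r ^ 2 / 16 - Jf Q Q1 r ^ 2)) * ‖Q r‖)) r := by
  have hA := hasDerivAt_Af h0 h
  have hn := hasDerivAt_norm h0 hQ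
  have hq : 0 < ‖Q r‖ := norm_pos_iff.2 hQ
  have h1 := (hasDerivAt_pow k r).mul (hA.div hn hq.ne')
  refine h1.congr_deriv ?_
  have hL := Lagrange_id Q Q1 r
  rw [← norm_sq_eq (Q r)]
  have hL' : (Q1 r).re ^ 2 + (Q1 r).im ^ 2 = (Af Q Q1 r ^ 2 + Gf Q Q1 r ^ 2) / ‖Q r‖ ^ 2 := by
    field_simp; linarith
  rw [hL']
  simp only [q1f, Jf]
  rcases Nat.eq_zero_or_pos k with hk | hk
  · subst hk
    simp
    field_simp
    ring
  · have e1 : r ^ k = r ^ (k - 1) * r := by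
      rw [← pow_succ, Nat.sub_add_cancel hk]
    rw [e1]
    simp only [Pi.div_apply]
    field_simp
    ring

/-- The flux identity, differentiated. -/
theorem hasDerivAt_flux {Q Q1 : ℝ → ℂ} {r a w P : ℝ} {k : ℕ} (hr : 0 < r)
    (h0 : HasDerivAt Q (Q1 r) r)
    (h : HasDerivAt Q1 (-((((k : ℝ) / r : ℝ) : ℂ) + I * (r / 2 : ℝ)) * Q1 r
      - ((w : ℂ) + I * a) * Q r + P * Q r) r) :
    HasDerivAt (fun s => s ^ k * Gf Q Q1 s + s ^ (k + 1) * ((Q s).re ^ 2 + (Q s).im ^ 2) / 4)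
      ((((k : ℝ) + 1) / 4 - a) * (r ^ k * ((Q r).re ^ 2 + (Q r).im ^ 2))) r := by
  have hG := hasDerivAt_Gf h0 h
  have h2 := ((hasDerivAt_re h0).pow 2).add ((hasDerivAt_im h0).pow 2)
  have h3 := ((hasDerivAt_pow k r).mul hG).add
    (((hasDerivAt_pow (k + 1) r).mul h2).div_const 4)
  refine h3.congr_deriv ?_
  simp only [Af, Gf]
  rcases Nat.eq_zero_or_pos k with hk | hk
  · subst hk
    simp
    ring
  · have e1 : r ^ k = r ^ (k - 1) * r := by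
      rw [← pow_succ, Nat.sub_add_cancel hk]
    have e2 : r ^ (k + 1) = r ^ (k - 1) * r ^ 2 := by
      rw [pow_succ, e1]; ring
    simp only [Nat.add_sub_cancel, Nat.cast_add, Nat.cast_one, Pi.add_apply, Pi.pow_apply]
    rw [e1, e2]
    field_simp
    push_cast
    ring

theorem continuousOn_Af {Q Q1 : ℝ → ℂ} {s : Set ℝ} (h0 : ContinuousOn Q s)
    (h1 : ContinuousOn Q1 s) : ContinuousOn (Af Q Q1) s :=
  ((Complex.continuous_re.comp_continuousOn h0).mul (Complex.continuous_re.comp_continuousOn h1)).add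
    ((Complex.continuous_im.comp_continuousOn h0).mul (Complex.continuous_im.comp_continuousOn h1))

theorem continuousOn_Gf {Q Q1 : ℝ → ℂ} {s : Set ℝ} (h0 : ContinuousOn Q s)
    (h1 : ContinuousOn Q1 s) : ContinuousOn (Gf Q Q1) s :=
  ((Complex.continuous_re.comp_continuousOn h0).mul (Complex.continuous_im.comp_continuousOn h1)).sub
    ((Complex.continuous_im.comp_continuousOn h0).mul (Complex.continuous_re.comp_continuousOn h1))

/-- From the complex equation on `(0, T]` to the real system. -/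
theorem toCoreSys {k n : ℕ} {w T : ℝ} {Q Q1 : ℝ → ℂ} (hT : 0 < T)
    (hk : 1 ≤ k) (cQ : ContinuousOn Q (Icc 0 T)) (cQ1 : ContinuousOn Q1 (Icc 0 T))
    (h0 : ∀ r ∈ Ioc 0 T, HasDerivAt Q (Q1 r) r)
    (h1 : ∀ r ∈ Ioc 0 T, HasDerivAt Q1 (-((((k : ℝ) / r : ℝ) : ℂ) + I * (r / 2 : ℝ)) * Q1 r
      - ((w : ℂ) + I * (1 / n : ℝ)) * Q r + (min (‖Q r‖ ^ n) 4 : ℝ) * Q r) r)
    (hQ10 : Q1 0 = 0) (hpos : ∀ r ∈ Icc 0 T, Q r ≠ 0)
    (hlow : ∀ r ∈ Icc 0 T, w / 2 ≤ ‖Q r‖ ^ n) (hhit : ‖Q T‖ ^ n = w / 2) :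
    CoreSys k n w T (fun r => ‖Q r‖) (q1f Q Q1) (Jf Q Q1) := by
  have hq : ∀ r ∈ Icc 0 T, 0 < ‖Q r‖ := fun r hr => norm_pos_iff.2 (hpos r hr)
  have hA0 : Af Q Q1 0 = 0 := by simp [Af, hQ10]
  refine ⟨hT, cQ.norm, hq, fun r hr => hasDerivAt_norm (h0 r hr) (hpos r ⟨hr.1.le, hr.2⟩),
    fun r hr => hasDerivAt_rq1 hr.1 (hpos r ⟨hr.1.le, hr.2⟩) (h0 r hr) (h1 r hr), ?_, ?_, ?_,
    hlow, hhit⟩
  · have hc : ContinuousOn (fun s => s ^ k * q1f Q Q1 s) (Icc 0 T) :=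
      (continuous_pow k).continuousOn.mul ((continuousOn_Af cQ cQ1).div cQ.norm
        (fun r hr => (hq r hr).ne'))
    have h2 := (hc 0 ⟨le_rfl, hT.le⟩)
    have h3 : Tendsto (fun s => s ^ k * q1f Q Q1 s) (𝓝[Icc 0 T] 0) (𝓝 0) := by
      have h4 := h2.tendsto
      simpa [q1f, hA0] using h4
    refine h3.mono_left ?_
    rw [← nhdsWithin_Ioo_eq_nhdsGT hT]
    exact nhdsWithin_mono _ Ioo_subset_Icc_self
  · simp [q1f, hA0]
  · intro r hr
    have hsub : Icc 0 r ⊆ Icc 0 T := Icc_subset_Icc le_rfl hr.2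
    have hcq : ContinuousOn (fun s => s ^ k * ‖Q s‖ ^ 2) (Icc 0 r) :=
      ((continuous_pow k).continuousOn).mul ((cQ.mono hsub).norm.pow 2)
    have hcF : ContinuousOn (fun s => s ^ k * Gf Q Q1 s +
        s ^ (k + 1) * ((Q s).re ^ 2 + (Q s).im ^ 2) / 4) (Icc 0 r) := by
      refine ((continuous_pow k).continuousOn.mul
        (continuousOn_Gf (cQ.mono hsub) (cQ1.mono hsub))).add ?_
      refine ((continuous_pow (k + 1)).continuousOn.mul ?_).div_const 4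
      exact ((Complex.continuous_re.comp_continuousOn (cQ.mono hsub)).pow 2).add
        ((Complex.continuous_im.comp_continuousOn (cQ.mono hsub)).pow 2)
    have h2 : ∀ s ∈ Ioo 0 r, HasDerivAt (fun s => s ^ k * Gf Q Q1 s +
        s ^ (k + 1) * ((Q s).re ^ 2 + (Q s).im ^ 2) / 4)
        ((((k : ℝ) + 1) / 4 - 1 / n) * (s ^ k * ‖Q s‖ ^ 2)) s := by
      intro s hs
      have hs' : s ∈ Ioc 0 T := ⟨hs.1, hs.2.le.trans hr.2⟩
      have := hasDerivAt_flux (k := k) hs.1 (h0 s hs') (h1 s hs')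
      rw [norm_sq_eq]
      exact this
    have h3 := intervalIntegral.integral_eq_sub_of_hasDerivAt_of_le hr.1.le hcF h2
      (by
        apply ContinuousOn.intervalIntegrable
        rw [uIcc_of_le hr.1.le]
        exact continuousOn_const.mul hcq)
    rw [intervalIntegral.integral_const_mul] at h3
    rw [h3]
    have hqr := hq r ⟨hr.1.le, hr.2⟩
    have hk0 : (0 : ℝ) ^ k = 0 := zero_pow (by omega)
    simp only [hk0, zero_mul, zero_div, ne_eq, Nat.add_eq_zero_iff, one_ne_zero, and_false,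
      not_false_eq_true, zero_pow, add_zero, sub_zero]
    rw [← norm_sq_eq, Jf]
    field_simp
    ring

end Vale.Agent.P139.H844
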