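import Mathlib

/-!
# P139 / H844 : radial maximum principles (block [P], P3/P8)
-/

open Set Filter Topology

namespace Vale.Agent.P139.H844

/-- If `y` has positive derivative on `(r0, r1)` and tends to a nonnegative limit at `r0`, then
`y > 0` on `(r0, r1)`. -/
theorem pos_of_deriv_pos {y y' : ℝ → ℝ} {r0 r1 : ℝ}
    (hy : ∀ r ∈ Ioo r0 r1, HasDerivAt y (y' r) r) (hy' : ∀ r ∈ Ioo r0 r1, 0 < y' r)
    (hlim : Tendsto y (𝓝[>] r0) (𝓝 0)) : ∀ r ∈ Ioo r0 r1, 0 < y r := by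
  intro r hr
  have hmono : StrictMonoOn y (Ioo r0 r1) := by
    apply strictMonoOn_of_deriv_pos (convex_Ioo r0 r1)
    · intro x hx
      exact (hy x hx).continuousAt.continuousWithinAt
    · intro x hx
      rw [interior_Ioo] at hx
      rw [(hy x hx).deriv]
      exact hy' x hx
  have hmid : (r0 + r) / 2 ∈ Ioo r0 r1 := by
    constructor <;> [skip; skip] <;> linarith [hr.1, hr.2]
  have h1 : 0 ≤ y ((r0 + r) / 2) := by
    apply le_of_tendsto hlim
    have : Ioo r0 ((r0 + r) / 2) ∈ 𝓝[>] r0 := Ioo_mem_nhdsGT (by linarith [hr.1])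
    filter_upwards [this] with s hs
    exact (hmono ⟨hs.1, by linarith [hs.2, hmid.2]⟩ hmid hs.2).le
  exact lt_of_le_of_lt h1 (hmono hmid hr (by linarith [hr.1]))

/-- Strict increase of `z` from its derivative `z1 > 0` on `(r0, r1)`, up to the end point. -/
theorem lt_of_deriv_pos {z z1 : ℝ → ℝ} {r0 r1 : ℝ} (hr : r0 < r1)
    (hc : ContinuousOn z (Icc r0 r1))
    (hz : ∀ r ∈ Ioo r0 r1, HasDerivAt z (z1 r) r) (hz1 : ∀ r ∈ Ioo r0 r1, 0 < z1 r) :
    z r0 < z r1 := by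
  have hmono : StrictMonoOn z (Icc r0 r1) := by
    apply strictMonoOn_of_deriv_pos (convex_Icc r0 r1) hc
    intro x hx
    rw [interior_Icc] at hx
    rw [(hz x hx).deriv]
    exact hz1 x hx
  exact hmono (left_mem_Icc.2 hr.le) (right_mem_Icc.2 hr.le) hr

/-- Radial maximum principle. `y = r^k z'`; if `y' > 0` wherever `z > m`, then `z ≤ max m (z T)`
on `[0, T]`. -/
theorem radial_max {k : ℕ} {z z1 y' : ℝ → ℝ} {T m : ℝ} (hT : 0 < T)
    (hc : ContinuousOn z (Icc 0 T))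
    (hz : ∀ r ∈ Ioo 0 T, HasDerivAt z (z1 r) r)
    (hy : ∀ r ∈ Ioo 0 T, HasDerivAt (fun s => s ^ k * z1 s) (y' r) r)
    (h0 : Tendsto (fun s => s ^ k * z1 s) (𝓝[>] 0) (𝓝 0))
    (hm : ∀ r ∈ Ioo 0 T, m < z r → 0 < y' r) :
    ∀ r ∈ Icc 0 T, z r ≤ max m (z T) := by
  by_contra hcon
  push Not at hcon
  obtain ⟨r1, hr1, hlt⟩ := hcon
  obtain ⟨r0, hr0, hmax⟩ := isCompact_Icc.exists_isMaxOn (nonempty_Icc.2 hT.le) hc
  have hmax' : ∀ r ∈ Icc 0 T, z r ≤ z r0 := fun r hr => hmax hr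
  have hM : max m (z T) < z r0 := lt_of_lt_of_le hlt (hmax' r1 hr1)
  have hm0 : m < z r0 := lt_of_le_of_lt (le_max_left _ _) hM
  have hT0 : r0 < T := by
    rcases lt_or_eq_of_le hr0.2 with h | h
    · exact h
    · exfalso
      rw [h] at hM
      exact absurd hM (not_lt.2 (le_max_right _ _))
  -- `z > m` on `[r0, r0+δ)`
  have hcw : ContinuousWithinAt z (Icc 0 T) r0 := hc r0 hr0
  have hev : ∀ᶠ r in 𝓝[Icc 0 T] r0, m < z r := hcw.eventually_const_lt hm0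
  obtain ⟨δ, hδ, hball⟩ := Metric.mem_nhdsWithin_iff.1 hev
  set r2 := min T (r0 + δ / 2) with hr2
  have hr02 : r0 < r2 := lt_min hT0 (by linarith)
  have hr2T : r2 ≤ T := min_le_left _ _
  have hsub : ∀ r ∈ Ioo r0 r2, r ∈ Ioo 0 T := fun r hr =>
    ⟨lt_of_le_of_lt hr0.1 hr.1, lt_of_lt_of_le hr.2 hr2T⟩
  have hzm : ∀ r ∈ Ioo r0 r2, m < z r := by
    intro r hr
    apply hball
    refine ⟨?_, (hsub r hr).1.le, (hsub r hr).2.le⟩
    rw [Metric.mem_ball, Real.dist_eq, abs_lt]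
    constructor
    · linarith [hr.1]
    · have := lt_of_lt_of_le hr.2 (min_le_right T (r0 + δ / 2))
      linarith
  have hlim : Tendsto (fun s => s ^ k * z1 s) (𝓝[>] r0) (𝓝 0) := by
    rcases eq_or_lt_of_le hr0.1 with h | h
    · rw [← h]; exact h0
    · have hr0' : r0 ∈ Ioo 0 T := ⟨h, hT0⟩
      have hloc : IsLocalMax z r0 := by
        filter_upwards [Ioo_mem_nhds h hT0] with r hr
        exact hmax' r ⟨hr.1.le, hr.2.le⟩
      have hz0 : z1 r0 = 0 := hloc.hasDerivAt_eq_zero (hz r0 hr0')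
      have hcont := (hy r0 hr0').continuousAt
      have : Tendsto (fun s => s ^ k * z1 s) (𝓝 r0) (𝓝 (r0 ^ k * z1 r0)) := hcont
      rw [hz0, mul_zero] at this
      exact this.mono_left nhdsWithin_le_nhds
  have hypos := pos_of_deriv_pos (r1 := r2) (fun r hr => hy r (hsub r hr))
    (fun r hr => hm r (hsub r hr) (hzm r hr)) hlim
  have hz1pos : ∀ r ∈ Ioo r0 r2, 0 < z1 r := by
    intro r hr
    have h1 : 0 < r ^ k := pow_pos (hsub r hr).1 k
    have h2 := hypos r hr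
    exact pos_of_mul_pos_right h2 h1.le
  have hfin : z r0 < z r2 := lt_of_deriv_pos hr02
    (hc.mono (Icc_subset_Icc hr0.1 hr2T)) (fun r hr => hz r (hsub r hr)) hz1pos
  exact absurd (hmax' r2 ⟨hr0.1.trans hr02.le, hr2T⟩) (not_le.2 hfin)

/-- Second maximum principle: `y' = G`, and `G' > 0` wherever `G = 0` and `y > m`. -/
theorem deriv_max {y G G' : ℝ → ℝ} {T m : ℝ} (hT : 0 < T)
    (hc : ContinuousOn y (Icc 0 T))
    (hy : ∀ r ∈ Ioo 0 T, HasDerivAt y (G r) r)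
    (hG : ∀ r ∈ Ioo 0 T, HasDerivAt G (G' r) r)
    (hm : ∀ r ∈ Ioo 0 T, m < y r → G r = 0 → 0 < G' r)
    (h0 : y 0 ≤ m) (h1 : y T ≤ m) :
    ∀ r ∈ Icc 0 T, y r ≤ m := by
  by_contra hcon
  push Not at hcon
  obtain ⟨r1, hr1, hlt⟩ := hcon
  obtain ⟨r0, hr0, hmax⟩ := isCompact_Icc.exists_isMaxOn (nonempty_Icc.2 hT.le) hc
  have hmax' : ∀ r ∈ Icc 0 T, y r ≤ y r0 := fun r hr => hmax hr
  have hM : m < y r0 := lt_of_lt_of_le hlt (hmax' r1 hr1)
  have hr00 : 0 < r0 := by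
    rcases lt_or_eq_of_le hr0.1 with h | h
    · exact h
    · exfalso; rw [← h] at hM; linarith
  have hr0T : r0 < T := by
    rcases lt_or_eq_of_le hr0.2 with h | h
    · exact h
    · exfalso; rw [h] at hM; linarith
  have hr0' : r0 ∈ Ioo 0 T := ⟨hr00, hr0T⟩
  have hloc : IsLocalMax y r0 := by
    filter_upwards [Ioo_mem_nhds hr00 hr0T] with r hr
    exact hmax' r ⟨hr.1.le, hr.2.le⟩
  have hG0 : G r0 = 0 := hloc.hasDerivAt_eq_zero (hy r0 hr0')
  have hG' := hm r0 hr0' hM hG0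
  -- `G > 0` on `(r0, r0+δ)`
  have hpos : ∀ᶠ r in 𝓝[>] r0, 0 < G r := by
    have h2 : Tendsto (slope G r0) (𝓝[≠] r0) (𝓝 (G' r0)) :=
      hasDerivAt_iff_tendsto_slope.1 (hG r0 hr0')
    have h3 : Tendsto (slope G r0) (𝓝[>] r0) (𝓝 (G' r0)) :=
      h2.mono_left (nhdsWithin_mono _ (fun x hx => ne_of_gt hx))
    filter_upwards [h3.eventually_const_lt hG', self_mem_nhdsWithin] with r hr hr'
    rw [slope_def_field, hG0, sub_zero] at hr
    have h4 : 0 < r - r0 := sub_pos.2 hr'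
    have h5 := mul_pos hr h4
    rwa [div_mul_cancel₀ _ h4.ne'] at h5
  obtain ⟨r2, hr2, hG2⟩ := (mem_nhdsGT_iff_exists_Ioo_subset).1 hpos
  set r3 := min T r2 with hr3
  have hr03 : r0 < r3 := lt_min hr0T hr2
  have hfin : y r0 < y r3 := lt_of_deriv_pos hr03
    (hc.mono (Icc_subset_Icc hr0.1 (min_le_left _ _)))
    (fun r hr => hy r ⟨hr00.trans hr.1, lt_of_lt_of_le hr.2 (min_le_left _ _)⟩)
    (fun r hr => hG2 ⟨hr.1, lt_of_lt_of_le hr.2 (min_le_right _ _)⟩)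
  exact absurd (hmax' r3 ⟨hr0.1.trans hr03.le, min_le_left _ _⟩) (not_le.2 hfin)

end Vale.Agent.P139.H844
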